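import Vale.Agent.P090.Main

/-!
Shared definitions for the proof that the bounded approximation property fails
for a uniformly discrete metric space.
-/

namespace Vale.Agent.P090

open Classical

/-- Generators: an index of one of the four affine maps together with a colour. -/
abbrev Gen : Type := Fin 4 × Bool

/-- Letters: a generator or (second component `false`) its inverse. -/
abbrev Letter : Type := Gen × Bool

/-- The free group on the generators. -/
abbrev FG : Type := FreeGroup Gen

/-- Points: `none` is the terminal point, `some ⟨m, z⟩` is the point `z` of the piece `m`. -/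
abbrev Pt : Type := Option (Σ m, Yf m)

/-- Labels: a remaining word and a point. -/
abbrev Lab (Q : Type) : Type := List Letter × Q

/-- The inverse letter. -/
def linv (x : Letter) : Letter := (x.1, !x.2)

/-- A letter as an element of the free group. -/
def lg (x : Letter) : FG := FreeGroup.mk [x]

/-- The colour of a point of a piece. -/
noncomputable def colF (m : ℕ) (z : Yf m) : Bool := decide (redF m z)

/-- The reversible letter action on points: the letter `((i, c), true)` applies the `i`-th affine
map at points of colour `c`; the letter `((i, c), false)` undoes this. -/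
noncomputable def step : Letter → Pt → Option Pt
  | _, none => none
  | ((i, c), true), some ⟨m, z⟩ =>
      if colF m z = c then some (some ⟨m, sigF m i z⟩) else none
  | ((i, c), false), some ⟨m, z⟩ =>
      if colF m ((sigF m i).symm z) = c then some (some ⟨m, (sigF m i).symm z⟩) else none

section generic

variable {Q : Type}

/-- Reversibility of a letter action. -/
def Rev (st : Letter → Q → Option Q) : Prop :=
  ∀ x q q', st x q = some q' → st (linv x) q' = some q

/-- Follow the letters of a word from its head as long as they are available; return the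
remaining word and the point reached. -/
def walk (st : Letter → Q → Option Q) : List Letter → Q → Lab Q
  | [], q => ([], q)
  | x :: w, q =>
    match st x q with
    | some q' => walk st w q'
    | none => (x :: w, q)

/-- Multiply a word by a letter at its end, cancelling if possible. -/
def tm (r : List Letter) (x : Letter) : List Letter :=
  if r.getLast? = some (linv x) then r.dropLast else r ++ [x]

/-- The action of a letter on labels. -/
def beta (st : Letter → Q → Option Q) (x : Letter) (p : Lab Q) : Lab Q :=
  match p.1, st x p.2 with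
  | [], some q' => ([], q')
  | _, _ => (tm p.1 x, p.2)

/-- Valid labels: the word is reduced and its first letter is not available at the point. -/
def Valid (st : Letter → Q → Option Q) (p : Lab Q) : Prop :=
  FreeGroup.IsReduced p.1 ∧ ∀ b ∈ p.1.head?, st b p.2 = none

end generic

section group

variable {H : Type} [Group H]

/-- Truncated word length in `H` with respect to the images of the letters. -/
noncomputable def wl (φ : FG →* H) (R : ℕ) (k : H) : ℕ :=
  sInf {n | n = R + 1 ∨ ∃ g : FG, g.norm = n ∧ φ g = k}

/-- Decoding of short elements of `H`. -/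
noncomputable def dec (φ : FG →* H) (R : ℕ) (k : H) : FG :=
  if h : ∃ g : FG, g.norm ≤ R ∧ φ g = k then h.choose else 1

/-- Admissible functions with constant `c` on the layer `H × Pt`. -/
structure AdmL (φ : FG →* H) (l W c : ℝ) (f : H × Pt → ℝ) : Prop where
  edge : ∀ h q x q', step x q = some q' → |f (h, q) - f (h * φ (lg x), q')| ≤ c
  term : ∀ h q, |f (h, q) - f (h, none)| ≤ c * l
  bdd : ∀ a, |f a| ≤ c * W

/-- The data extracted on a layer from a finite rank operator of norm at most `lam` that almost
fixes the terminal points. -/
structure LOp (φ : FG →* H) (l W lam e1 : ℝ) (Q : H × Pt → ((H × Pt → ℝ) →ₗ[ℝ] ℝ)) : Prop where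
  edge : ∀ c f, 0 < c → AdmL φ l W c f → ∀ h q x q', step x q = some q' →
    |Q (h, q) f - Q (h * φ (lg x), q') f| ≤ lam * c
  term : ∀ c f, 0 < c → AdmL φ l W c f → ∀ h q, |Q (h, q) f - Q (h, none) f| ≤ lam * c * l
  fix : ∀ c f, 0 < c → AdmL φ l W c f → ∀ h, |Q (h, none) f - f (h, none)| ≤ e1 * c
  tight : ∀ η : ℝ, 0 < η → ∃ J : ℕ, ∀ c f, 0 < c → AdmL φ l W c f →
    (∀ h q, f (h, q) ≠ 0 → ∃ m z, q = some ⟨m, z⟩ ∧ J ≤ m) → ∀ a, |Q a f| ≤ η * c

end group

/-- A metric is dual to a family of functions. -/
structure IsDual (V : Type) [MetricSpace V] (A : Set (V → ℝ)) : Prop where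
  lip : ∀ f ∈ A, ∀ a b, |f a - f b| ≤ dist a b
  le : ∀ a b c, (∀ f ∈ A, |f a - f b| ≤ c) → dist a b ≤ c

/-- An almost equivariant family of nonnegative weights on labels, indexed by the piece `J`. -/
structure Flow (J : ℕ) (N : Yf J → Lab Pt → ℝ) (Ls : Finset (Lab Pt)) (ε : ℝ) : Prop where
  nonneg : ∀ u p, 0 ≤ N u p
  supp : ∀ u p, p ∉ Ls → N u p = 0
  valid : ∀ u p, ¬ Valid step p → N u p = 0
  reg : ∀ u r m z, J ≤ m → N u (r, some ⟨m, z⟩) = 0
  tv : ∀ u x u', step x (some ⟨J, u⟩) = some (some ⟨J, u'⟩) →
    ∀ S : Finset (Lab Pt), (∀ p ∈ S, Valid step p) →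
      ∑ p ∈ S, |N u' (beta step x p) - N u p| ≤ ε

/-- Total weight of the drifted labels (nonempty remaining word). -/
noncomputable def aS {J : ℕ} (N : Yf J → Lab Pt → ℝ) (Ls : Finset (Lab Pt)) (u : Yf J) : ℝ :=
  ∑ p ∈ Ls.filter (fun p => p.1 ≠ []), N u p

/-- Total weight of the aligned labels at which the letter `x` is not available. -/
noncomputable def bS {J : ℕ} (N : Yf J → Lab Pt → ℝ) (Ls : Finset (Lab Pt)) (x : Letter)
    (u : Yf J) : ℝ :=
  ∑ p ∈ Ls.filter (fun p => p.1 = [] ∧ step x p.2 = none), N u p

end Vale.Agent.P090
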