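import Vale.Agent.P090.BFlow1

/-!
Module D2: the combinatorial core.  An almost equivariant family of nonnegative label weights
cannot exist.

Notation as in `BFlow1`.  `mis u := bS N Ls ((0, col u), true) u` (independent of the index `0`):
the weight of aligned labels `([], z)` with `z` terminal or of colour different from `col u`.
From `flow_ineq`: `3 ∑ a + 4 ∑ mis ≤ 4 |Y| ε`; also `0 ≤ ε` (`tv` with `S = ∅`).

Kernel: for `m < J`, `Kt m u z := if colF J u = colF m z then N u ([], some ⟨m, z⟩) else 0`.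
(4) For fixed `i`, `u`, `u' = σ i u`:
  `∑ m < J, ∑ z, |Kt m u' (sigF m i z) - Kt m u z| ≤ ε + mis u' + bS N Ls ((i, col u), false) u'`.
  Indeed if `colF m z = col u` the letter `x = ((i, col u), true)` is available at both and
  `beta step x ([], some ⟨m,z⟩) = ([], some ⟨m, sigF m i z⟩)`, so
  `|Kt u' (σ z) - Kt u z| ≤ |N u' (beta x p) - N u p| + [col u' ≠ col (σ z)] N u' ([], σ z)`;
  if `colF m z ≠ col u` then `Kt u z = 0` and at `z' = σ z` the letter `((i, col u), false)` is not
  available.  Use `tv` for the first sum; the other sums are sub-sums of `mis u'` and `bS .. u'`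
  (labels outside `Ls` have weight zero: `Finset.sum_le_sum_of_ne_zero`).
  Summing over `u` with `back_ineq`:  `∑ u ∑ m ∑ z |..| ≤ 2 |Y| ε + ∑ mis + ∑ a ≤ 5 |Y| ε`.
(5) `∑ p ∈ Ls, N u p ≤ a u + mis u + ∑ m < J, ∑ z, Kt m u z` (use `reg`).
(6) `prodGapF J m` applied to `φ u z = √(Kt m u z)` and `sqrt_sub_sq_le` (see `no_kern` in
  `Kernel.lean` for the same computation) gives
  `∑ u ∑ z Kt m u z ≤ 72 ∑ i ∑ u ∑ z |Kt m (σ i u) (sigF m i z) - Kt m u z|`.
  Sum over `m < J`:  `|Y| / 2 - (7/3) |Y| ε ≤ 72 * 4 * 5 |Y| ε`, contradiction with `ε ≤ 1/3000`.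
-/

namespace Vale.Agent.P090

open Classical Finset

/-- The colour of a point of the disjoint union of the pieces. -/
noncomputable def colS (a : Σ m, Yf m) : Bool := colF a.1 a.2

theorem step_true_some (i : Fin 4) (c : Bool) (a : Σ m, Yf m) :
    step ((i, c), true) (some a)
      = if colS a = c then some (some (sig sigF i a)) else none := by
  obtain ⟨m, z⟩ := a
  rfl

theorem step_false_some (i : Fin 4) (c : Bool) (a : Σ m, Yf m) :
    step ((i, c), false) (some a)
      = if colS ((sig sigF i).symm a) = c then some (some ((sig sigF i).symm a)) else none := by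
  obtain ⟨m, z⟩ := a
  rfl

theorem step_true_none_iff (i : Fin 4) (c : Bool) (q : Pt) :
    step ((i, c), true) q = none ↔ ∀ a, q = some a → colS a ≠ c := by
  cases q with
  | none => simp [step]
  | some a =>
    rw [step_true_some]
    by_cases h : colS a = c
    · simp [h]
    · simp [h]

variable {J : ℕ} {N : Yf J → Lab Pt → ℝ} {Ls : Finset (Lab Pt)} {ε : ℝ}

theorem bS_true_eq (i : Fin 4) (c : Bool) (u : Yf J) :
    bS N Ls ((i, c), true) u = bS N Ls ((0, c), true) u := by
  unfold bS
  congr 1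
  apply Finset.filter_congr
  intro p _
  rw [step_true_none_iff, step_true_none_iff]

/-- The finite set of points of the pieces below `J`. -/
noncomputable def ZJ (J : ℕ) : Finset (Σ m, Yf m) :=
  (Finset.range J).sigma (fun _ => Finset.univ)

theorem mem_ZJ (J : ℕ) (a : Σ m, Yf m) : a ∈ ZJ J ↔ a.1 < J := by
  simp [ZJ]

theorem sum_ZJ_comp (J : ℕ) (i : Fin 4) (f : (Σ m, Yf m) → ℝ) :
    ∑ a ∈ ZJ J, f (sig sigF i a) = ∑ a ∈ ZJ J, f a := by
  apply Finset.sum_equiv (sig sigF i)
  · intro a
    rw [mem_ZJ, mem_ZJ]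
    rfl
  · intro a _
    rfl

theorem emb0_injective : Function.Injective (fun a : Σ m, Yf m => (([], some a) : Lab Pt)) := by
  intro a b h
  simpa using h

/-- Sums of aligned weights over points at which `x` is not available are bounded by `bS`. -/
theorem sum_aligned_le (h : Flow J N Ls ε) (x : Letter) (u : Yf J) (Pz : (Σ m, Yf m) → Prop)
    [DecidablePred Pz] (hP : ∀ a, Pz a → step x (some a) = none) (Z : Finset (Σ m, Yf m)) :
    ∑ a ∈ Z, (if Pz a then N u ([], some a) else 0) ≤ bS N Ls x u := by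
  rw [← Finset.sum_filter,
    ← Finset.sum_image (f := fun p => N u p) (g := fun a : Σ m, Yf m => (([], some a) : Lab Pt))
      (fun a _ b _ hab => emb0_injective hab)]
  unfold bS
  rw [← Finset.sum_filter_of_ne (p := fun q => q ∈ Ls) (fun q _ hne => by
    by_contra hq'
    exact hne (h.supp u q hq'))]
  apply Finset.sum_le_sum_of_subset_of_nonneg
  · intro q hq
    rw [Finset.mem_filter] at hq ⊢
    refine ⟨hq.2, ?_⟩
    obtain ⟨a, ha, rfl⟩ := Finset.mem_image.mp hq.1
    exact ⟨rfl, hP a (Finset.mem_filter.mp ha).2⟩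
  · intro q _ _
    exact h.nonneg u q

/-- The colour matched aligned kernel. -/
noncomputable def Ka (N : Yf J → Lab Pt → ℝ) (u : Yf J) (a : Σ m, Yf m) : ℝ :=
  if colF J u = colS a then N u ([], some a) else 0

theorem Ka_nonneg (h : Flow J N Ls ε) (u : Yf J) (a : Σ m, Yf m) : 0 ≤ Ka N u a := by
  unfold Ka
  split_ifs
  · exact h.nonneg _ _
  · exact le_refl _

theorem valid_nil (q : Pt) : Valid step (([], q) : Lab Pt) :=
  ⟨FreeGroup.IsReduced.nil, by simp⟩

theorem kernel_tv (h : Flow J N Ls ε) (i : Fin 4) (u : Yf J) :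
    ∑ a ∈ ZJ J, |Ka N (sigF J i u) (sig sigF i a) - Ka N u a|
      ≤ ε + bS N Ls ((0, colF J (sigF J i u)), true) (sigF J i u)
        + bS N Ls ((i, colF J u), false) (sigF J i u) := by
  set u' := sigF J i u with hu'
  set x : Letter := ((i, colF J u), true) with hx
  have hpt : ∀ a, |Ka N u' (sig sigF i a) - Ka N u a|
      ≤ (if colF J u = colS a then |N u' (beta step x ([], some a)) - N u ([], some a)| else 0)
        + (if colS (sig sigF i a) ≠ colF J u' then N u' ([], some (sig sigF i a)) else 0)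
        + (if colS ((sig sigF i).symm (sig sigF i a)) ≠ colF J u
            then N u' ([], some (sig sigF i a)) else 0) := by
    intro a
    have hn := h.nonneg u' ([], some (sig sigF i a))
    rw [Equiv.symm_apply_apply]
    unfold Ka
    by_cases h1 : colF J u = colS a
    · have hb : beta step x ([], some a) = ([], some (sig sigF i a)) := by
        simp only [beta, hx, step_true_some, h1, if_true]
      rw [hb, if_pos h1, if_pos h1, if_neg (not_not.mpr h1.symm), add_zero]
      by_cases h2 : colF J u' = colS (sig sigF i a)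
      · rw [if_pos h2, if_neg (not_not.mpr h2.symm), add_zero]
      · rw [if_neg h2, if_pos (fun h' => h2 h'.symm)]
        have e : (0 : ℝ) - N u ([], some a)
            = (N u' ([], some (sig sigF i a)) - N u ([], some a))
              + -N u' ([], some (sig sigF i a)) := by ring
        rw [e]
        refine (abs_add_le _ _).trans ?_
        rw [abs_neg, abs_of_nonneg hn]
    · have h1' : colS a ≠ colF J u := fun h' => h1 h'.symm
      simp only [if_neg h1]
      rw [if_pos h1', sub_zero, zero_add]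
      split_ifs
      · rw [abs_of_nonneg hn]; linarith
      · rw [abs_of_nonneg hn]; linarith
      · simp only [abs_zero]; linarith
      · simp only [abs_zero]; linarith
  have s1 : ∑ a ∈ ZJ J, (if colF J u = colS a
      then |N u' (beta step x ([], some a)) - N u ([], some a)| else 0) ≤ ε := by
    rw [← Finset.sum_filter,
      ← Finset.sum_image (f := fun p => |N u' (beta step x p) - N u p|)
        (g := fun a : Σ m, Yf m => (([], some a) : Lab Pt))
        (fun a _ b _ hab => emb0_injective hab)]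
    apply h.tv u x u' (step_fwd i u)
    intro p hp
    obtain ⟨a, _, rfl⟩ := Finset.mem_image.mp hp
    exact valid_nil _
  have s2 : ∑ a ∈ ZJ J, (if colS (sig sigF i a) ≠ colF J u'
      then N u' ([], some (sig sigF i a)) else 0) ≤ bS N Ls ((0, colF J u'), true) u' := by
    rw [sum_ZJ_comp J i (fun a => if colS a ≠ colF J u' then N u' ([], some a) else 0)]
    apply sum_aligned_le h
    intro a ha
    rw [step_true_some, if_neg ha]
  have s3 : ∑ a ∈ ZJ J, (if colS ((sig sigF i).symm (sig sigF i a)) ≠ colF J u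
      then N u' ([], some (sig sigF i a)) else 0) ≤ bS N Ls ((i, colF J u), false) u' := by
    rw [sum_ZJ_comp J i (fun a => if colS ((sig sigF i).symm a) ≠ colF J u
      then N u' ([], some a) else 0)]
    apply sum_aligned_le h
    intro a ha
    rw [step_false_some, if_neg ha]
  calc _ ≤ ∑ a ∈ ZJ J, (_ + _ + _) := Finset.sum_le_sum (fun a _ => hpt a)
    _ = _ + _ + _ := by rw [Finset.sum_add_distrib, Finset.sum_add_distrib]
    _ ≤ _ := add_le_add (add_le_add s1 s2) s3

theorem mass_split (h : Flow J N Ls ε) (u : Yf J) :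
    ∑ p ∈ Ls, N u p ≤ aS N Ls u + bS N Ls ((0, colF J u), true) u + ∑ a ∈ ZJ J, Ka N u a := by
  set x : Letter := ((0, colF J u), true) with hx
  have e1 : ∑ p ∈ Ls, N u p = aS N Ls u + bS N Ls x u
      + ∑ p ∈ Ls.filter (fun p => p.1 = [] ∧ step x p.2 ≠ none), N u p := by
    unfold aS bS
    simp only [Finset.sum_filter]
    rw [← Finset.sum_add_distrib, ← Finset.sum_add_distrib]
    apply Finset.sum_congr rfl
    intro p _
    by_cases h0 : p.1 = []
    · by_cases h1 : step x p.2 = none
      · simp [h0, h1]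
      · simp [h0, h1]
    · simp [h0]
  set T : Finset (Lab Pt) := ((ZJ J).filter (fun a => colF J u = colS a)).image
    (fun a : Σ m, Yf m => (([], some a) : Lab Pt)) with hT
  have e2 : ∑ p ∈ Ls.filter (fun p => p.1 = [] ∧ step x p.2 ≠ none), N u p ≤ ∑ p ∈ T, N u p := by
    rw [← Finset.sum_filter_of_ne (p := fun q => q ∈ T) (fun q hq hne => by
      obtain ⟨r, z⟩ := q
      obtain ⟨_, h0, h1⟩ := Finset.mem_filter.mp hq
      simp only at h0 h1
      subst h0
      rw [Ne, step_true_none_iff] at h1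
      push Not at h1
      obtain ⟨a, rfl, ha⟩ := h1
      rw [hT, Finset.mem_image]
      refine ⟨a, ?_, rfl⟩
      rw [Finset.mem_filter, mem_ZJ]
      refine ⟨?_, ha.symm⟩
      by_contra hJ
      obtain ⟨m, z⟩ := a
      exact hne (h.reg u [] m z (not_lt.mp hJ)))]
    apply Finset.sum_le_sum_of_subset_of_nonneg
    · intro q hq
      exact (Finset.mem_filter.mp hq).2
    · intro q _ _
      exact h.nonneg u q
  have e3 : ∑ p ∈ T, N u p = ∑ a ∈ ZJ J, Ka N u a := by
    rw [hT, Finset.sum_image (fun a _ b _ hab => emb0_injective hab), Finset.sum_filter]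
    rfl
  linarith

theorem gap_fibre (h : Flow J N Ls ε) (m : ℕ) (hm : m < J) :
    ∑ u, ∑ z, Ka N u ⟨m, z⟩
      ≤ 72 * ∑ i, ∑ u, ∑ z, |Ka N (sigF J i u) ⟨m, sigF m i z⟩ - Ka N u ⟨m, z⟩| := by
  have h1 := prodGapF J m hm.ne' (fun u z => Real.sqrt (Ka N u ⟨m, z⟩)) (by
    intro u z hu hz
    have : Ka N u ⟨m, z⟩ = 0 := by
      unfold Ka
      rw [if_neg]
      unfold colS colF
      simp [hu, hz]
    simp only [this, Real.sqrt_zero])
  calc ∑ u, ∑ z, Ka N u ⟨m, z⟩ = ∑ u, ∑ z, Real.sqrt (Ka N u ⟨m, z⟩) ^ 2 := by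
        apply Finset.sum_congr rfl; intro u _
        apply Finset.sum_congr rfl; intro z _
        rw [Real.sq_sqrt (Ka_nonneg h _ _)]
    _ ≤ _ := h1
    _ ≤ _ := by
        apply mul_le_mul_of_nonneg_left _ (by norm_num)
        apply Finset.sum_le_sum; intro i _
        apply Finset.sum_le_sum; intro u _
        apply Finset.sum_le_sum; intro z _
        exact sqrt_sub_sq_le (Ka_nonneg h _ _) (Ka_nonneg h _ _)

theorem no_flow (J : ℕ) (N : Yf J → Lab Pt → ℝ) (Ls : Finset (Lab Pt)) (ε : ℝ)
    (h : Flow J N Ls ε) (hmass : ∀ u, 1 / 2 ≤ ∑ p ∈ Ls, N u p) (hε : ε ≤ 1 / 3000) : False := by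
  set c : ℝ := (Fintype.card (Yf J) : ℝ) with hc
  have hcpos : 0 < c := by
    have : Nonempty (Yf J) := ⟨(0, 0)⟩
    rw [hc]
    exact_mod_cast Fintype.card_pos
  set A : ℝ := ∑ u, aS N Ls u with hA
  set B : ℝ := ∑ u, bS N Ls ((0, colF J u), true) u with hB
  have hA0 : 0 ≤ A := by
    apply Finset.sum_nonneg
    intro u _
    unfold aS
    exact Finset.sum_nonneg (fun p _ => h.nonneg u p)
  have hB0 : 0 ≤ B := by
    apply Finset.sum_nonneg
    intro u _
    unfold bS
    exact Finset.sum_nonneg (fun p _ => h.nonneg u p)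
  have f1 : 3 * A + 4 * B ≤ 4 * c * ε := by
    have := flow_ineq h
    have e : ∑ u, ∑ i : Fin 4, bS N Ls ((i, colF J u), true) u = 4 * B := by
      rw [hB, Finset.mul_sum]
      apply Finset.sum_congr rfl
      intro u _
      rw [Finset.sum_congr rfl (fun i _ => bS_true_eq i (colF J u) u)]
      simp
    rw [e] at this
    exact this
  -- the kernel is almost invariant
  have f2 : ∀ i : Fin 4, ∑ u, ∑ a ∈ ZJ J, |Ka N (sigF J i u) (sig sigF i a) - Ka N u a|
      ≤ 2 * c * ε + B + A := by
    intro i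
    have s1 : ∑ u, bS N Ls ((0, colF J (sigF J i u)), true) (sigF J i u) = B :=
      Equiv.sum_comp (sigF J i) (fun u => bS N Ls ((0, colF J u), true) u)
    have s2 : ∑ u, bS N Ls ((i, colF J u), false) (sigF J i u) ≤ A + c * ε := by
      have e : ∑ u, bS N Ls ((i, colF J u), false) (sigF J i u)
          = ∑ u, bS N Ls ((i, colF J ((sigF J i).symm u)), false) u := by
        rw [← Equiv.sum_comp (sigF J i)
          (fun u => bS N Ls ((i, colF J ((sigF J i).symm u)), false) u)]
        simp
      rw [e]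
      calc _ ≤ ∑ u, (aS N Ls ((sigF J i).symm u) + ε) :=
            Finset.sum_le_sum (fun u _ => back_ineq h i u)
        _ = A + c * ε := by
            rw [Finset.sum_add_distrib, Equiv.sum_comp (sigF J i).symm (fun u => aS N Ls u),
              Finset.sum_const, Finset.card_univ, nsmul_eq_mul]
    calc _ ≤ ∑ u, (ε + bS N Ls ((0, colF J (sigF J i u)), true) (sigF J i u)
          + bS N Ls ((i, colF J u), false) (sigF J i u)) :=
          Finset.sum_le_sum (fun u _ => kernel_tv h i u)
      _ = c * ε + ∑ u, bS N Ls ((0, colF J (sigF J i u)), true) (sigF J i u)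
          + ∑ u, bS N Ls ((i, colF J u), false) (sigF J i u) := by
          rw [Finset.sum_add_distrib, Finset.sum_add_distrib, Finset.sum_const, Finset.card_univ,
            nsmul_eq_mul]
      _ ≤ _ := by rw [s1]; linarith
  -- lower bound for the kernel mass
  have f3 : c * (1 / 2) - A - B ≤ ∑ u, ∑ a ∈ ZJ J, Ka N u a := by
    have : ∑ _u : Yf J, (1 / 2 : ℝ) ≤ ∑ u, (aS N Ls u + bS N Ls ((0, colF J u), true) u
        + ∑ a ∈ ZJ J, Ka N u a) :=
      Finset.sum_le_sum (fun u _ => (hmass u).trans (mass_split h u))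
    rw [Finset.sum_add_distrib, Finset.sum_add_distrib, Finset.sum_const, Finset.card_univ,
      nsmul_eq_mul] at this
    linarith
  -- the spectral gap
  have sumZ : ∀ f : (Σ m, Yf m) → ℝ, ∑ a ∈ ZJ J, f a = ∑ m ∈ Finset.range J, ∑ z, f ⟨m, z⟩ := by
    intro f
    rw [ZJ, Finset.sum_sigma]
  have f4 : ∑ u, ∑ a ∈ ZJ J, Ka N u a
      ≤ 72 * ∑ i : Fin 4, ∑ u, ∑ a ∈ ZJ J, |Ka N (sigF J i u) (sig sigF i a) - Ka N u a| := by
    calc ∑ u, ∑ a ∈ ZJ J, Ka N u a = ∑ m ∈ Finset.range J, ∑ u, ∑ z, Ka N u ⟨m, z⟩ := by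
          symm
          rw [Finset.sum_comm]
          apply Finset.sum_congr rfl
          intro u _
          exact (sumZ _).symm
      _ ≤ ∑ m ∈ Finset.range J,
            72 * ∑ i, ∑ u, ∑ z, |Ka N (sigF J i u) ⟨m, sigF m i z⟩ - Ka N u ⟨m, z⟩| :=
          Finset.sum_le_sum (fun m hm => gap_fibre h m (Finset.mem_range.mp hm))
      _ = _ := by
          rw [← Finset.mul_sum, Finset.sum_comm]
          congr 1
          apply Finset.sum_congr rfl; intro i _
          rw [Finset.sum_comm]
          apply Finset.sum_congr rfl; intro u _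
          rw [sumZ]
          rfl
  have f5 : ∑ i : Fin 4, ∑ u, ∑ a ∈ ZJ J, |Ka N (sigF J i u) (sig sigF i a) - Ka N u a|
      ≤ 4 * (2 * c * ε + B + A) := by
    calc _ ≤ ∑ _i : Fin 4, (2 * c * ε + B + A) := Finset.sum_le_sum (fun i _ => f2 i)
      _ = _ := by simp; ring
  have hce : c * ε ≤ c * (1 / 3000) := mul_le_mul_of_nonneg_left hε hcpos.le
  nlinarith

end Vale.Agent.P090
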