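import Vale.Agent.P090.BDefs

/-!
Module D1: the flow (paradoxical decomposition) inequalities.

Notation: `Y = Yf J`, `σ i = sigF J i`, `col u = colF J u`, `a u = aS N Ls u`,
`a_x u = ∑ p ∈ Ls with p.1.getLast? = some x, N u p`, `b_x u = bS N Ls x u`.

(E1) Let `x` be available at `u` with `step x (some ⟨J,u⟩) = some (some ⟨J,u'⟩)`.  Put
  `S = Ls.filter (Valid ∧ ((p.1 ≠ [] ∧ p.1.getLast? ≠ some (linv x)) ∨ (p.1 = [] ∧ step x p.2 = none)))`.
  For `p ∈ S`, `beta step x p = (p.1 ++ [x], p.2)`; this map is injective, its values have last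
  letter `x`, and `N u'` vanishes outside `Ls`, hence `∑ p ∈ S, N u' (beta step x p) ≤ a_x u'`
  (`Finset.sum_image`, `Finset.sum_le_sum_of_ne_zero`).
  Since `N u` vanishes at invalid labels, `∑ p ∈ S, N u p = a u - a_{linv x} u + b_x u`.
  With `tv`:  `a u - a_{linv x} u + b_x u - ε ≤ a_x u'`.
(E2) Apply (E1) with `x = ((i, col u), true)`, `u' = σ i u`, and sum over `i : Fin 4`, `u : Y`.
  After reindexing `u' = σ i u`, for fixed `u'` the letters `((i, col ((σ i).symm u')), true)` are
  distinct for distinct `i` and have sign `true`, so the left side is at most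
  `∑ u', (weight of labels in Ls whose last letter has sign true)`; likewise
  `∑ i, a_{((i, col u), false)} u ≤ (weight of labels whose last letter has sign false)`.
  The two weights add up to `a u`.  Note that `b_{((i, c), true)} u` does not depend on `i`.
  Result: `3 ∑ a + ∑ u ∑ i b ≤ 4 |Y| ε`.
(E3) Apply `tv` with the letter `x = ((i, col ((σ i).symm u')), false)` from `u'` to
  `(σ i).symm u'` and `S = Ls.filter (p.1 = [] ∧ step x p.2 = none)` (all valid):
  `beta step x p = ([x], p.2)`, a drifted label.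
-/

namespace Vale.Agent.P090

open Classical Finset

variable {J : ℕ} {N : Yf J → Lab Pt → ℝ} {Ls : Finset (Lab Pt)} {ε : ℝ}

/-- Total weight of the labels whose word ends with the letter `x`. -/
noncomputable def lastS (N : Yf J → Lab Pt → ℝ) (Ls : Finset (Lab Pt)) (x : Letter)
    (u : Yf J) : ℝ :=
  ∑ p ∈ Ls.filter (fun p => p.1.getLast? = some x), N u p

/-- Total weight of the labels whose word ends with a letter of sign `s`. -/
noncomputable def signS (N : Yf J → Lab Pt → ℝ) (Ls : Finset (Lab Pt)) (s : Bool)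
    (u : Yf J) : ℝ :=
  ∑ p ∈ Ls.filter (fun p => ∃ g, p.1.getLast? = some (g, s)), N u p

theorem beta_append (x : Letter) (p : Lab Pt)
    (hp : (p.1 ≠ [] ∧ p.1.getLast? ≠ some (linv x)) ∨ (p.1 = [] ∧ step x p.2 = none)) :
    beta step x p = (p.1 ++ [x], p.2) := by
  obtain ⟨r, z⟩ := p
  rcases hp with ⟨h1, h2⟩ | ⟨h1, h2⟩
  · simp only at h1 h2
    cases r with
    | nil => exact absurd rfl h1
    | cons b w =>
      simp only [beta, tm]
      rw [if_neg h2]
  · simp only at h1 h2
    subst h1
    simp only [beta, h2, tm]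
    simp

theorem lastS_le_aS (h : Flow J N Ls ε) (x : Letter) (u : Yf J) : lastS N Ls x u ≤ aS N Ls u := by
  unfold lastS aS
  apply Finset.sum_le_sum_of_subset_of_nonneg
  · intro p hp
    rw [Finset.mem_filter] at hp ⊢
    refine ⟨hp.1, fun h0 => ?_⟩
    rw [h0] at hp
    simp at hp
  · intro p _ _
    exact h.nonneg u p

theorem flow_e1 (h : Flow J N Ls ε) {u u' : Yf J} {x : Letter}
    (hst : step x (some ⟨J, u⟩) = some (some ⟨J, u'⟩)) :
    aS N Ls u - lastS N Ls (linv x) u + bS N Ls x u - ε ≤ lastS N Ls x u' := by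
  set S : Finset (Lab Pt) := Ls.filter (fun p => Valid step p ∧
    ((p.1 ≠ [] ∧ p.1.getLast? ≠ some (linv x)) ∨ (p.1 = [] ∧ step x p.2 = none))) with hS
  have hβ : ∀ p ∈ S, beta step x p = (p.1 ++ [x], p.2) := by
    intro p hp
    exact beta_append x p (Finset.mem_filter.mp hp).2.2
  have hA : ∑ p ∈ S, N u p = aS N Ls u - lastS N Ls (linv x) u + bS N Ls x u := by
    unfold aS lastS bS
    rw [hS, Finset.sum_filter, Finset.sum_filter, Finset.sum_filter, Finset.sum_filter,
      ← Finset.sum_sub_distrib, ← Finset.sum_add_distrib]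
    apply Finset.sum_congr rfl
    intro p _
    by_cases hv : Valid step p
    · by_cases h0 : p.1 = []
      · have h1 : ¬ p.1.getLast? = some (linv x) := by rw [h0]; simp
        by_cases h2 : step x p.2 = none
        · simp [hv, h0, h2]
        · simp [hv, h0, h2]
      · by_cases h1 : p.1.getLast? = some (linv x)
        · simp [hv, h0, h1]
        · simp [hv, h0, h1]
    · rw [h.valid u p hv]
      simp
  have hB : ∑ p ∈ S, N u' (beta step x p) ≤ lastS N Ls x u' := by
    rw [Finset.sum_congr rfl (fun p hp => by rw [hβ p hp])]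
    have hinj : Set.InjOn (fun p : Lab Pt => ((p.1 ++ [x], p.2) : Lab Pt)) (S : Set (Lab Pt)) := by
      intro p _ p' _ hpp
      simp only [Prod.mk.injEq, List.append_left_inj] at hpp
      exact Prod.ext hpp.1 hpp.2
    rw [← Finset.sum_image (f := fun q => N u' q) hinj]
    unfold lastS
    rw [← Finset.sum_filter_of_ne (p := fun q => q ∈ Ls) (fun q _ hne => by
      by_contra hq'
      exact hne (h.supp u' q hq'))]
    apply Finset.sum_le_sum_of_subset_of_nonneg
    · intro q hq
      rw [Finset.mem_filter] at hq ⊢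
      refine ⟨hq.2, ?_⟩
      obtain ⟨p, _, rfl⟩ := Finset.mem_image.mp hq.1
      simp
    · intro q _ _
      exact h.nonneg u' q
  have hC : ∑ p ∈ S, N u p - ∑ p ∈ S, N u' (beta step x p) ≤ ε := by
    rw [← Finset.sum_sub_distrib]
    refine le_trans ?_ (h.tv u x u' hst S (fun p hp => (Finset.mem_filter.mp hp).2.1))
    apply Finset.sum_le_sum
    intro p _
    rw [abs_sub_comm]
    exact le_abs_self _
  linarith

theorem sum_lastS_le (h : Flow J N Ls ε) (c : Fin 4 → Bool) (s : Bool) (u : Yf J) :
    ∑ i : Fin 4, lastS N Ls ((i, c i), s) u ≤ signS N Ls s u := by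
  unfold lastS signS
  simp only [Finset.sum_filter]
  rw [Finset.sum_comm]
  apply Finset.sum_le_sum
  intro p _
  by_cases hp : ∃ g, p.1.getLast? = some (g, s)
  · rw [if_pos hp]
    obtain ⟨g, hg⟩ := hp
    calc ∑ i : Fin 4, (if p.1.getLast? = some ((i, c i), s) then N u p else 0)
        ≤ ∑ i : Fin 4, (if i = g.1 then N u p else 0) := by
          apply Finset.sum_le_sum
          intro i _
          by_cases hi : i = g.1
          · rw [if_pos hi]
            split_ifs
            · exact le_refl _
            · exact h.nonneg u p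
          · rw [if_neg hi, if_neg]
            intro h'
            rw [hg] at h'
            simp only [Option.some.injEq, Prod.mk.injEq] at h'
            exact hi (by rw [h'.1])
      _ = N u p := by simp
  · rw [if_neg hp]
    apply le_of_eq
    apply Finset.sum_eq_zero
    intro i _
    rw [if_neg]
    intro h'
    exact hp ⟨_, h'⟩

theorem signS_add_le (h : Flow J N Ls ε) (u : Yf J) :
    signS N Ls true u + signS N Ls false u ≤ aS N Ls u := by
  unfold signS aS
  simp only [Finset.sum_filter]
  rw [← Finset.sum_add_distrib]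
  apply Finset.sum_le_sum
  intro p _
  have hn := h.nonneg u p
  by_cases h0 : p.1 = []
  · simp [h0]
  · rw [if_pos h0]
    by_cases h1 : ∃ g, p.1.getLast? = some (g, true)
    · have h2 : ¬ ∃ g, p.1.getLast? = some (g, false) := by
        rintro ⟨g', hg'⟩
        obtain ⟨g, hg⟩ := h1
        rw [hg] at hg'
        simp at hg'
      rw [if_pos h1, if_neg h2, add_zero]
    · rw [if_neg h1, zero_add]
      split_ifs
      · exact le_refl _
      · exact hn

theorem linv_true (g : Gen) : linv (g, true) = (g, false) := rfl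

theorem step_fwd (i : Fin 4) (u : Yf J) :
    step ((i, colF J u), true) (some ⟨J, u⟩) = some (some ⟨J, sigF J i u⟩) := by
  simp [step]

theorem step_bwd (i : Fin 4) (u : Yf J) :
    step ((i, colF J ((sigF J i).symm u)), false) (some ⟨J, u⟩)
      = some (some ⟨J, (sigF J i).symm u⟩) := by
  simp [step]

theorem flow_ineq (h : Flow J N Ls ε) :
    3 * ∑ u, aS N Ls u + ∑ u, ∑ i : Fin 4, bS N Ls ((i, colF J u), true) u
      ≤ 4 * (Fintype.card (Yf J) : ℝ) * ε := by
  have h1 : ∀ u, ∀ i : Fin 4, aS N Ls u - lastS N Ls ((i, colF J u), false) u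
      + bS N Ls ((i, colF J u), true) u - ε ≤ lastS N Ls ((i, colF J u), true) (sigF J i u) := by
    intro u i
    have := flow_e1 h (step_fwd i u)
    rwa [linv_true] at this
  have h2 : ∑ u, ∑ i : Fin 4, (aS N Ls u - lastS N Ls ((i, colF J u), false) u
      + bS N Ls ((i, colF J u), true) u - ε)
      ≤ ∑ u, ∑ i : Fin 4, lastS N Ls ((i, colF J u), true) (sigF J i u) :=
    Finset.sum_le_sum (fun u _ => Finset.sum_le_sum (fun i _ => h1 u i))
  have h3 : ∑ u, ∑ i : Fin 4, lastS N Ls ((i, colF J u), true) (sigF J i u)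
      ≤ ∑ u, signS N Ls true u := by
    rw [Finset.sum_comm]
    have : ∀ i : Fin 4, ∑ u, lastS N Ls ((i, colF J u), true) (sigF J i u)
        = ∑ u, lastS N Ls ((i, colF J ((sigF J i).symm u)), true) u := by
      intro i
      rw [← Equiv.sum_comp (sigF J i)
        (fun u => lastS N Ls ((i, colF J ((sigF J i).symm u)), true) u)]
      simp
    rw [Finset.sum_congr rfl (fun i _ => this i), Finset.sum_comm]
    apply Finset.sum_le_sum
    intro u _
    exact sum_lastS_le h (fun i => colF J ((sigF J i).symm u)) true u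
  have h4 : ∑ u, ∑ i : Fin 4, lastS N Ls ((i, colF J u), false) u ≤ ∑ u, signS N Ls false u := by
    apply Finset.sum_le_sum
    intro u _
    exact sum_lastS_le h (fun _ => colF J u) false u
  have h5 : ∑ u, signS N Ls true u + ∑ u, signS N Ls false u ≤ ∑ u, aS N Ls u := by
    rw [← Finset.sum_add_distrib]
    exact Finset.sum_le_sum (fun u _ => signS_add_le h u)
  have h6 : ∑ u, ∑ i : Fin 4, (aS N Ls u - lastS N Ls ((i, colF J u), false) u
      + bS N Ls ((i, colF J u), true) u - ε)
      = 4 * ∑ u, aS N Ls u - ∑ u, ∑ i : Fin 4, lastS N Ls ((i, colF J u), false) u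
        + ∑ u, ∑ i : Fin 4, bS N Ls ((i, colF J u), true) u
        - 4 * (Fintype.card (Yf J) : ℝ) * ε := by
    simp only [Finset.sum_sub_distrib, Finset.sum_add_distrib, Finset.sum_const, Finset.card_univ,
      Fintype.card_fin, nsmul_eq_mul, Finset.mul_sum]
    push_cast
    ring
  linarith

theorem back_ineq (h : Flow J N Ls ε) (i : Fin 4) (u : Yf J) :
    bS N Ls ((i, colF J ((sigF J i).symm u)), false) u ≤ aS N Ls ((sigF J i).symm u) + ε := by
  have h1 := flow_e1 h (step_bwd i u)
  have h2 := lastS_le_aS h (linv ((i, colF J ((sigF J i).symm u)), false)) u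
  have h3 := lastS_le_aS h ((i, colF J ((sigF J i).symm u)), false) ((sigF J i).symm u)
  linarith

end Vale.Agent.P090
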