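import Vale.Agent.P090.BDefs

/-!
Module A: a finite group with large girth, i.e. a homomorphism from the free group to a finite
group that is nontrivial on all nontrivial elements of norm at most `n`.

Suggested proof: `Om n := {g : FG // g.norm ≤ n}` is finite (`toWord` is injective into lists of
bounded length over a finite alphabet).  For each generator `a` the map `g ↦ of a * g` is an
equivalence between the subtypes `{ω : Om n | (of a * ω).norm ≤ n}` and
`{ω : Om n | ((of a)⁻¹ * ω).norm ≤ n}`; extend it to a permutation with `Equiv.extendSubtype`.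
`gphi n := FreeGroup.lift` of these.  By induction on a word `w` with `w.length ≤ n`,
`gphi n (mk w) ⟨1, _⟩ = ⟨mk w, _⟩` (use `FreeGroup.norm_mk_le`).  Apply with `w = g.toWord`.
-/

namespace Vale.Agent.P090

open Classical

/-- The finite set on which the group acts. -/
abbrev Om (n : ℕ) : Type := {g : FG // g.norm ≤ n}

/-- The finite group. -/
def GH (n : ℕ) : Type := Equiv.Perm (Om n)

instance (n : ℕ) : Group (GH n) := inferInstanceAs (Group (Equiv.Perm (Om n)))

instance (n : ℕ) : Finite (Om n) := by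
  have hfin : {w : List Letter | w.length ≤ n}.Finite := List.finite_length_le Letter n
  have : Finite {w : List Letter // w.length ≤ n} := hfin.to_subtype
  exact Finite.of_injective
    (fun ω : Om n => (⟨ω.1.toWord, ω.2⟩ : {w : List Letter // w.length ≤ n})) (by
      intro a b h
      apply Subtype.ext
      apply FreeGroup.toWord_injective
      exact congrArg Subtype.val h)

instance (n : ℕ) : Finite (GH n) := inferInstanceAs (Finite (Equiv.Perm (Om n)))

noncomputable instance (n : ℕ) : Fintype (GH n) := Fintype.ofFinite _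

instance (n : ℕ) : Countable (GH n) := Finite.to_countable

/-- Left multiplication by a generator, where it stays in the ball. -/
def pe (n : ℕ) (a : Gen) :
    {ω : Om n // (FreeGroup.of a * ω.1).norm ≤ n} ≃ {ω : Om n // ((FreeGroup.of a)⁻¹ * ω.1).norm ≤ n} where
  toFun ω := ⟨⟨FreeGroup.of a * ω.1.1, ω.2⟩, by
    show ((FreeGroup.of a)⁻¹ * (FreeGroup.of a * ω.1.1)).norm ≤ n
    rw [inv_mul_cancel_left]; exact ω.1.2⟩
  invFun ω := ⟨⟨(FreeGroup.of a)⁻¹ * ω.1.1, ω.2⟩, by
    show (FreeGroup.of a * ((FreeGroup.of a)⁻¹ * ω.1.1)).norm ≤ n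
    rw [mul_inv_cancel_left]; exact ω.1.2⟩
  left_inv ω := by
    apply Subtype.ext
    apply Subtype.ext
    show (FreeGroup.of a)⁻¹ * (FreeGroup.of a * ω.1.1) = ω.1.1
    rw [inv_mul_cancel_left]
  right_inv ω := by
    apply Subtype.ext
    apply Subtype.ext
    show FreeGroup.of a * ((FreeGroup.of a)⁻¹ * ω.1.1) = ω.1.1
    rw [mul_inv_cancel_left]

/-- The permutation attached to a generator. -/
noncomputable def pg (n : ℕ) (a : Gen) : GH n := (pe n a).extendSubtype

/-- An element of the group as a permutation. -/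
def toP {n : ℕ} (σ : GH n) : Equiv.Perm (Om n) := σ

theorem pg_apply (n : ℕ) (a : Gen) (ω : Om n) (h : (FreeGroup.of a * ω.1).norm ≤ n) :
    toP (pg n a) ω = ⟨FreeGroup.of a * ω.1, h⟩ :=
  (pe n a).extendSubtype_apply_of_mem ω h

theorem pg_inv_apply (n : ℕ) (a : Gen) (ω : Om n) (h : ((FreeGroup.of a)⁻¹ * ω.1).norm ≤ n) :
    (toP (pg n a))⁻¹ ω = ⟨(FreeGroup.of a)⁻¹ * ω.1, h⟩ := by
  rw [Equiv.Perm.inv_eq_iff_eq]
  have h2 : (FreeGroup.of a * ((FreeGroup.of a)⁻¹ * ω.1)).norm ≤ n := by
    rw [mul_inv_cancel_left]; exact ω.2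
  rw [pg_apply n a ⟨(FreeGroup.of a)⁻¹ * ω.1, h⟩ h2]
  apply Subtype.ext
  show ω.1 = FreeGroup.of a * ((FreeGroup.of a)⁻¹ * ω.1)
  rw [mul_inv_cancel_left]

/-- The homomorphism. -/
noncomputable def gphi (n : ℕ) : FG →* GH n := FreeGroup.lift (pg n)

theorem gphi_mk_apply (n : ℕ) (w : List Letter) (hw : w.length ≤ n) :
    toP (gphi n (FreeGroup.mk w)) ⟨1, by simp⟩
      = ⟨FreeGroup.mk w, FreeGroup.norm_mk_le.trans hw⟩ := by
  induction w with
  | nil =>
    have : (FreeGroup.mk ([] : List Letter)) = 1 := rfl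
    apply Subtype.ext
    simp only [this, map_one]
    rfl
  | cons x w ih =>
    have hw' : w.length ≤ n := by simp only [List.length_cons] at hw; omega
    have e : FreeGroup.mk (x :: w) = FreeGroup.mk [x] * FreeGroup.mk w := by
      rw [FreeGroup.mul_mk]; rfl
    have hn : (FreeGroup.mk [x] * FreeGroup.mk w).norm ≤ n := by
      rw [← e]; exact FreeGroup.norm_mk_le.trans hw
    have e2 : toP (gphi n (FreeGroup.mk (x :: w))) ⟨1, by simp⟩
        = toP (gphi n (FreeGroup.mk [x]))
          (toP (gphi n (FreeGroup.mk w)) ⟨1, by simp⟩) := by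
      rw [e, map_mul]
      rfl
    rw [e2, ih hw']
    obtain ⟨a, s⟩ := x
    cases s with
    | true =>
      have e3 : FreeGroup.mk [(a, true)] = FreeGroup.of a := rfl
      have e4 : gphi n (FreeGroup.of a) = pg n a := FreeGroup.lift_apply_of
      rw [e3] at hn
      rw [e3, e4, pg_apply n a _ hn]
      apply Subtype.ext
      show FreeGroup.of a * FreeGroup.mk w = FreeGroup.mk ((a, true) :: w)
      rw [e, e3]
    | false =>
      have e3 : FreeGroup.mk [(a, false)] = (FreeGroup.of a)⁻¹ := rfl
      have e4 : gphi n (FreeGroup.of a)⁻¹ = (pg n a)⁻¹ := by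
        rw [map_inv]; congr 1
      rw [e3] at hn
      rw [e3, e4]
      have := pg_inv_apply n a ⟨FreeGroup.mk w, FreeGroup.norm_mk_le.trans hw'⟩ hn
      refine this.trans ?_
      apply Subtype.ext
      show (FreeGroup.of a)⁻¹ * FreeGroup.mk w = FreeGroup.mk ((a, false) :: w)
      rw [e, e3]

theorem gphi_girth (n : ℕ) (g : FG) (hg : g ≠ 1) (hn : g.norm ≤ n) : gphi n g ≠ 1 := by
  intro h
  have h1 := congrArg Subtype.val (gphi_mk_apply n g.toWord hn)
  simp only [FreeGroup.mk_toWord, h] at h1
  exact hg h1.symm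

end Vale.Agent.P090
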