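import Vale.Agent.P090.BDefs

/-!
Module B: (1) the metric dual to a family of functions; (2) the family of linear functionals
extracted from the bounded approximation property (generalising `exists_setFn` in `Oper.lean`;
reuse `dF`, `ev`, `finite_net`, `free_support` there, and `LinearMap.exists_extend` to extend the
functional `g ↦ ev o (T (dF o a)) g` from `lip0Submodule V o` to all functions).
-/

namespace Vale.Agent.P090

open Classical

/-- The distance dual to a family of functions. -/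
noncomputable def dualDist {V : Type} (A : Set (V → ℝ)) (a b : V) : ℝ :=
  sSup ((fun f : V → ℝ => |f a - f b|) '' A)

section dual

variable {V : Type} {A : Set (V → ℝ)} {w : V → ℝ}

theorem dualDist_bdd (hw : ∀ f ∈ A, ∀ a, |f a| ≤ w a) (a b : V) :
    BddAbove ((fun f : V → ℝ => |f a - f b|) '' A) := by
  refine ⟨w a + w b, ?_⟩
  rintro _ ⟨f, hf, rfl⟩
  exact (abs_sub _ _).trans (add_le_add (hw f hf a) (hw f hf b))

theorem le_dualDist (hw : ∀ f ∈ A, ∀ a, |f a| ≤ w a) (f : V → ℝ) (hf : f ∈ A) (a b : V) :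
    |f a - f b| ≤ dualDist A a b :=
  le_csSup (dualDist_bdd hw a b) ⟨f, hf, rfl⟩

theorem dualDist_le (hne : A.Nonempty) (a b : V) (c : ℝ) (h : ∀ f ∈ A, |f a - f b| ≤ c) :
    dualDist A a b ≤ c := by
  apply csSup_le (hne.image _)
  rintro _ ⟨f, hf, rfl⟩
  exact h f hf

/-- The metric dual to a family of functions. -/
@[reducible] noncomputable def dualMetric (A : Set (V → ℝ)) (w : V → ℝ) (hne : A.Nonempty)
    (hw : ∀ f ∈ A, ∀ a, |f a| ≤ w a)
    (hsep : ∀ a b, a ≠ b → ∃ f ∈ A, 1 ≤ |f a - f b|) : MetricSpace V where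
  dist := dualDist A
  dist_self a := by
    apply le_antisymm
    · exact dualDist_le hne a a 0 (fun f _ => by simp)
    · obtain ⟨f, hf⟩ := hne
      exact (abs_nonneg _).trans (le_dualDist hw f hf a a)
  dist_comm a b := by
    unfold dualDist
    congr 1
    apply Set.image_congr
    intro f _
    exact abs_sub_comm _ _
  dist_triangle a b c := by
    apply dualDist_le hne
    intro f hf
    have h1 := le_dualDist hw f hf a b
    have h2 := le_dualDist hw f hf b c
    have h3 : f a - f c = (f a - f b) + (f b - f c) := by ring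
    rw [h3]
    exact (abs_add_le _ _).trans (add_le_add h1 h2)
  eq_of_dist_eq_zero := by
    intro a b h
    by_contra hab
    obtain ⟨f, hf, h1⟩ := hsep a b hab
    have h2 := le_dualDist hw f hf a b
    change dualDist A a b = 0 at h
    linarith

end dual

/-- `dist a b := sSup {|f a - f b| : f ∈ A}`. -/
theorem exists_dual_metric {V : Type} (A : Set (V → ℝ)) (w : V → ℝ) (hne : A.Nonempty)
    (hw : ∀ f ∈ A, ∀ a, |f a| ≤ w a)
    (hsep : ∀ a b, a ≠ b → ∃ f ∈ A, 1 ≤ |f a - f b|) :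
    ∃ inst : MetricSpace V, @IsDual V inst A :=
  ⟨dualMetric A w hne hw hsep,
    @IsDual.mk V (dualMetric A w hne hw hsep) A (fun f hf a b => le_dualDist hw f hf a b)
      (fun a b c h => dualDist_le hne a b c h)⟩

/-- `f` vanishes at `o` and is `c`-Lipschitz. -/
def LipC {V : Type} [MetricSpace V] (o : V) (c : ℝ) (f : V → ℝ) : Prop :=
  f o = 0 ∧ ∀ x y, |f x - f y| ≤ c * dist x y

section pop

variable {V : Type} [MetricSpace V] (o : V)

/-- A Lipschitz function vanishing at the base point as an element of `Lip0`. -/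
def mkLip {c : ℝ} {f : V → ℝ} (hc : 0 ≤ c) (hf : LipC o c f) : Lip0 V o :=
  ⟨f, hf.1, c, hc, hf.2⟩

theorem mkLip_apply {c : ℝ} {f : V → ℝ} (hc : 0 ≤ c) (hf : LipC o c f) (x : V) :
    mkLip o hc hf x = f x := rfl

theorem norm_mkLip_le {c : ℝ} {f : V → ℝ} (hc : 0 ≤ c) (hf : LipC o c f) :
    ‖mkLip o hc hf‖ ≤ c := by
  rw [norm_def]
  exact lipConst_le hc hf.2

/-- Pairing with an element of the free space as a linear map on the Lipschitz functions. -/
noncomputable def evLin (u : LipFree V o) : ↥(lip0Submodule V o) →ₗ[ℝ] ℝ :=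
  ((u : StrongDual ℝ (Lip0 V o)) : Lip0 V o →ₗ[ℝ] ℝ)

theorem abs_ev_le_mul (u : LipFree V o) (g : Lip0 V o) {a c : ℝ} (hu : ‖u‖ ≤ a) (hg : ‖g‖ ≤ c) :
    |ev o u g| ≤ a * c := by
  have h0 : 0 ≤ ‖u‖ := norm_nonneg u
  calc |ev o u g| ≤ ‖u‖ * ‖g‖ := abs_ev_le o u g
    _ ≤ a * c := mul_le_mul hu hg (norm_nonneg g) (h0.trans hu)

theorem free_support' (u : LipFree V o) (η : ℝ) (hη : 0 < η) :
    ∃ K : Set V, K.Finite ∧ ∀ g : Lip0 V o, (∀ z ∈ K, g z = 0) → |ev o u g| ≤ η * ‖g‖ := by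
  have hu : (u : StrongDual ℝ (Lip0 V o)) ∈
      closure ((Submodule.span ℝ (Set.range (delta o)) : Submodule ℝ _) :
        Set (StrongDual ℝ (Lip0 V o))) := u.2
  obtain ⟨v, hv, huv⟩ := Metric.mem_closure_iff.mp hu η hη
  obtain ⟨K, hK, hKv⟩ := span_support o v hv
  refine ⟨K, hK, fun g hg => ?_⟩
  have h1 : ev o u g = ((u : StrongDual ℝ (Lip0 V o)) - v) g := by
    rw [sub_apply, hKv g hg, sub_zero]
    rfl
  rw [h1, ← Real.norm_eq_abs]
  calc ‖((u : StrongDual ℝ (Lip0 V o)) - v) g‖ ≤ ‖(u : StrongDual ℝ (Lip0 V o)) - v‖ * ‖g‖ :=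
        ContinuousLinearMap.le_opNorm _ _
    _ ≤ η * ‖g‖ := by
        apply mul_le_mul_of_nonneg_right _ (norm_nonneg _)
        rw [← dist_eq_norm]; exact huv.le

end pop

theorem exists_pop {V : Type} [MetricSpace V] (o : V) (lam : ℝ) (hBAP : HasBAP lam (LipFree V o))
    (E : Set V) (hE : E.Finite) (e1 : ℝ) (he : 0 < e1) :
    ∃ P : V → ((V → ℝ) →ₗ[ℝ] ℝ),
      (∀ a b c f, 0 ≤ c → LipC o c f → |P a f - P b f| ≤ lam * c * dist a b) ∧
      (∀ t ∈ E, ∀ c f, 0 ≤ c → LipC o c f → |P t f - f t| ≤ e1 * c) ∧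
      (∀ r η : ℝ, 0 < η → ∃ K : Set V, K.Finite ∧ ∀ a, dist a o ≤ r → ∀ c f, 0 ≤ c → LipC o c f →
        (∀ z ∈ K, f z = 0) → |P a f| ≤ η * c) := by
  obtain ⟨T, hfin, hnorm, happ⟩ := hBAP (dF o '' E) (hE.image _).isCompact e1 he
  have hlam : 0 ≤ lam := (norm_nonneg T).trans hnorm
  choose P hP using fun a : V => LinearMap.exists_extend (evLin o (T (dF o a)))
  have hPf : ∀ a c f (hc : 0 ≤ c) (hf : LipC o c f), P a f = ev o (T (dF o a)) (mkLip o hc hf) := by
    intro a c f hc hf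
    have := LinearMap.congr_fun (hP a) (mkLip o hc hf)
    exact this
  refine ⟨P, ?_, ?_, ?_⟩
  · intro a b c f hc hf
    rw [hPf a c f hc hf, hPf b c f hc hf, ← ev_sub_left]
    have hT : T (dF o a - dF o b) = T (dF o a) - T (dF o b) := map_sub T _ _
    rw [← hT]
    have h1 : ‖T (dF o a - dF o b)‖ ≤ lam * dist a b :=
      calc ‖T (dF o a - dF o b)‖ ≤ ‖T‖ * ‖dF o a - dF o b‖ := T.le_opNorm _
        _ ≤ lam * dist a b :=
          mul_le_mul hnorm (norm_dF_sub_le o a b) (norm_nonneg (dF o a - dF o b)) hlam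
    have h2 := abs_ev_le_mul o _ _ h1 (norm_mkLip_le o hc hf)
    calc _ ≤ lam * dist a b * c := h2
      _ = lam * c * dist a b := by ring
  · intro t ht c f hc hf
    rw [hPf t c f hc hf]
    have h1 : ev o (T (dF o t)) (mkLip o hc hf) - f t
        = ev o (T (dF o t) - dF o t) (mkLip o hc hf) := by
      rw [ev_sub_left, ev_dF]
      rfl
    rw [h1]
    exact abs_ev_le_mul o _ _ (happ _ ⟨t, ht, rfl⟩).le (norm_mkLip_le o hc hf)
  · intro r η hη
    obtain ⟨t, ht, hnet⟩ := finite_net T hfin r (η / 2) (by positivity)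
    choose! K hKfin hK using fun u : LipFree V o => free_support' o u (η / 2) (by positivity)
    refine ⟨⋃ u ∈ t, K u, ht.biUnion (fun u _ => hKfin u), fun a ha c f hc hf hvan => ?_⟩
    obtain ⟨u, hu, hclose⟩ := hnet (dF o a) ((norm_dF_le o a).trans ha)
    rw [hPf a c f hc hf]
    have hn := norm_mkLip_le o hc hf
    have h2 : |ev o u (mkLip o hc hf)| ≤ η / 2 * c := by
      refine (hK u (mkLip o hc hf) (fun z hz => hvan z (Set.mem_biUnion hu hz))).trans ?_
      exact mul_le_mul_of_nonneg_left hn (by positivity)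
    have h3 : |ev o (T (dF o a) - u) (mkLip o hc hf)| ≤ η / 2 * c :=
      abs_ev_le_mul o _ _ hclose.le hn
    have h4 : ev o (T (dF o a)) (mkLip o hc hf)
        = ev o (T (dF o a) - u) (mkLip o hc hf) + ev o u (mkLip o hc hf) := by
      rw [ev_sub_left]
      ring
    rw [h4]
    calc _ ≤ _ + _ := abs_add_le _ _
      _ ≤ η / 2 * c + η / 2 * c := add_le_add h3 h2
      _ = η * c := by ring

end Vale.Agent.P090
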