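import Vale.Agent.P090.BTest
import Vale.Agent.P090.BGirth
import Vale.Agent.P090.BMetric

/-!
Module F: the global space and the assembly of the proof.
-/

namespace Vale.Agent.P090

open Classical

/-- The decoding radius of the layer `k`. -/
def Rk (k : ℕ) : ℕ := 2 * (k + 1) ^ 2 + 2

/-- The finite group of the layer `k`. -/
abbrev Hk (k : ℕ) : Type := GH (2 * Rk k)

/-- The homomorphism of the layer `k`. -/
noncomputable abbrev phik (k : ℕ) : FG →* Hk k := gphi (2 * Rk k)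

/-- The vertex set: a base point `none` and the layers `Hk k × Pt`. -/
abbrev VB : Type := Option (Σ k, Hk k × Pt)

/-- The embedding of the layer `k`. -/
def emb (k : ℕ) (a : Hk k × Pt) : VB := some ⟨k, a⟩

theorem emb_injective (k : ℕ) : Function.Injective (emb k) := by
  intro a b h
  simpa [emb] using h

/-- The defining family of functions: on the layer `k` edges have length `1`, the terminal point
is at distance `k + 1` and the base point at distance `(k + 1) ^ 2`. -/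
def AdmG : Set (VB → ℝ) :=
  {f | f none = 0 ∧ ∀ k, AdmL (phik k) ((k : ℝ) + 1) (((k : ℝ) + 1) ^ 2) 1 (fun a => f (emb k a))}

theorem admL_zero (k : ℕ) (c : ℝ) (hc : 0 ≤ c) :
    AdmL (phik k) ((k : ℝ) + 1) (((k : ℝ) + 1) ^ 2) c (fun _ => 0) where
  edge _ _ _ _ _ := by simpa using hc
  term _ _ := by simp only [sub_self, abs_zero]; positivity
  bdd _ := by simp only [abs_zero]; positivity

theorem admG_nonempty : AdmG.Nonempty :=
  ⟨fun _ => 0, rfl, fun k => admL_zero k 1 zero_le_one⟩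

/-- The bound on the admissible functions. -/
noncomputable def wB : VB → ℝ
  | none => 0
  | some ⟨k, _⟩ => ((k : ℝ) + 1) ^ 2

theorem admG_bdd (f : VB → ℝ) (hf : f ∈ AdmG) (a : VB) : |f a| ≤ wB a := by
  cases a with
  | none => simp [wB, hf.1]
  | some a =>
    obtain ⟨k, a⟩ := a
    have := (hf.2 k).bdd a
    simpa [wB, emb] using this

theorem admG_ind (a : VB) (ha : a ≠ none) : (fun v => if v = a then (1 : ℝ) else 0) ∈ AdmG := by
  have hb : ∀ v w : VB, |(if v = a then (1 : ℝ) else 0) - (if w = a then (1 : ℝ) else 0)| ≤ 1 := by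
    intro v w
    split_ifs <;> simp
  refine ⟨if_neg (fun h => ha h.symm), fun k => ⟨fun h q x q' _ => hb _ _, fun h q => ?_, fun v => ?_⟩⟩
  · refine (hb _ _).trans ?_
    have : (0 : ℝ) ≤ k := Nat.cast_nonneg k
    linarith
  · have h0 : (0 : ℝ) ≤ k := Nat.cast_nonneg k
    have h1 : (1 : ℝ) ≤ 1 * ((k : ℝ) + 1) ^ 2 := by nlinarith
    refine le_trans ?_ h1
    show |if emb k v = a then (1 : ℝ) else 0| ≤ 1
    split_ifs <;> simp

theorem admG_sep (a b : VB) (hab : a ≠ b) : ∃ f ∈ AdmG, 1 ≤ |f a - f b| := by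
  by_cases ha : a = none
  · have hb : b ≠ none := fun h => hab (ha.trans h.symm)
    refine ⟨_, admG_ind b hb, ?_⟩
    simp [hab]
  · refine ⟨_, admG_ind a ha, ?_⟩
    simp [hab.symm]

/-- Extension by zero of a function on the layer `k`. -/
noncomputable def extk (k : ℕ) : (Hk k × Pt → ℝ) →ₗ[ℝ] (VB → ℝ) :=
  Function.ExtendByZero.linearMap ℝ (emb k)

theorem extk_emb (k : ℕ) (f : Hk k × Pt → ℝ) (a : Hk k × Pt) : extk k f (emb k a) = f a :=
  (emb_injective k).extend_apply f (0 : VB → ℝ) a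

theorem extk_of_not (k : ℕ) (f : Hk k × Pt → ℝ) (v : VB) (hv : ∀ a, emb k a ≠ v) :
    extk k f v = 0 :=
  Function.extend_apply' f (0 : VB → ℝ) v (fun ⟨a, ha⟩ => hv a ha)

theorem extk_other (k k' : ℕ) (hk : k' ≠ k) (f : Hk k × Pt → ℝ) (a : Hk k' × Pt) :
    extk k f (emb k' a) = 0 := by
  apply extk_of_not
  intro b hb
  simp only [emb, Option.some.injEq, Sigma.mk.injEq] at hb
  exact hk hb.1.symm

theorem extk_none (k : ℕ) (f : Hk k × Pt → ℝ) : extk k f none = 0 := by
  apply extk_of_not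
  intro b hb
  simp [emb] at hb

theorem extk_mem (k : ℕ) (c : ℝ) (hc : 0 < c) (f : Hk k × Pt → ℝ)
    (hf : AdmL (phik k) ((k : ℝ) + 1) (((k : ℝ) + 1) ^ 2) c f) : c⁻¹ • extk k f ∈ AdmG := by
  refine ⟨by simp [extk_none], fun k' => ?_⟩
  by_cases hk : k' = k
  · subst hk
    have e : (fun a => (c⁻¹ • extk k' f) (emb k' a)) = fun a => c⁻¹ * f a := by
      funext a
      simp [extk_emb]
    rw [e]
    have hci : 0 ≤ c⁻¹ := by positivity
    refine ⟨fun h q x q' hst => ?_, fun h q => ?_, fun a => ?_⟩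
    · rw [← mul_sub, abs_mul, abs_of_nonneg hci, inv_mul_le_iff₀ hc, mul_one]
      exact hf.edge h q x q' hst
    · rw [← mul_sub, abs_mul, abs_of_nonneg hci, inv_mul_le_iff₀ hc, one_mul]
      exact hf.term h q
    · rw [abs_mul, abs_of_nonneg hci, inv_mul_le_iff₀ hc, one_mul]
      exact hf.bdd a
  · have e : (fun a => (c⁻¹ • extk k f) (emb k' a)) = fun _ => 0 := by
      funext a
      simp [extk_other k k' hk]
    rw [e]
    exact admL_zero k' 1 zero_le_one

section metric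

variable [MetricSpace VB] (hD : IsDual VB AdmG)

include hD in
theorem extk_lip (k : ℕ) (c : ℝ) (hc : 0 < c) (f : Hk k × Pt → ℝ)
    (hf : AdmL (phik k) ((k : ℝ) + 1) (((k : ℝ) + 1) ^ 2) c f) :
    LipC (none : VB) c (extk k f) := by
  refine ⟨extk_none k f, fun x y => ?_⟩
  have h := hD.lip _ (extk_mem k c hc f hf) x y
  simp only [Pi.smul_apply, smul_eq_mul] at h
  rw [← mul_sub, abs_mul, abs_of_nonneg (by positivity : 0 ≤ c⁻¹), inv_mul_le_iff₀ hc] at h
  exact h

include hD in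
theorem dist_edge (k : ℕ) (h : Hk k) {q q' : Pt} {x : Letter} (hst : step x q = some q') :
    dist (emb k (h, q)) (emb k (h * phik k (lg x), q')) ≤ 1 :=
  hD.le _ _ _ (fun f hf => (hf.2 k).edge h q x q' hst)

include hD in
theorem dist_term (k : ℕ) (h : Hk k) (q : Pt) :
    dist (emb k (h, q)) (emb k (h, none)) ≤ (k : ℝ) + 1 :=
  hD.le _ _ _ (fun f hf => by simpa using (hf.2 k).term h q)

include hD in
theorem dist_base (k : ℕ) (a : Hk k × Pt) : dist (emb k a) none ≤ ((k : ℝ) + 1) ^ 2 :=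
  hD.le _ _ _ (fun f hf => by simpa [hf.1] using (hf.2 k).bdd a)

include hD in
theorem one_le_dist (a b : VB) (hab : a ≠ b) : 1 ≤ dist a b := by
  obtain ⟨f, hf, h1⟩ := admG_sep a b hab
  exact h1.trans (hD.lip f hf a b)

/-- The index of the piece of a vertex. -/
def mOf : VB → ℕ
  | some ⟨_, (_, some ⟨m, _⟩)⟩ => m
  | _ => 0

include hD in
theorem exists_LOp (k : ℕ) (lam : ℝ) (hlam : 0 ≤ lam) (hBAP : HasBAP lam (LipFree VB none)) :
    ∃ Q, LOp (phik k) ((k : ℝ) + 1) (((k : ℝ) + 1) ^ 2) lam 1 Q := by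
  have hE : (Set.range (fun h : Hk k => emb k (h, none))).Finite := Set.finite_range _
  obtain ⟨P, hP1, hP2, hP3⟩ := exists_pop (none : VB) lam hBAP _ hE 1 one_pos
  refine ⟨fun a => (P (emb k a)).comp (extk k), ?_, ?_, ?_, ?_⟩
  · intro c f hc hf h q x q' hst
    have h1 := hP1 (emb k (h, q)) (emb k (h * phik k (lg x), q')) c _ hc.le (extk_lip hD k c hc f hf)
    refine h1.trans ?_
    have h2 := dist_edge hD k h hst
    have h3 : 0 ≤ lam * c := by positivity
    nlinarith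
  · intro c f hc hf h q
    have h1 := hP1 (emb k (h, q)) (emb k (h, none)) c _ hc.le (extk_lip hD k c hc f hf)
    refine h1.trans ?_
    have h2 := dist_term hD k h q
    have h3 : 0 ≤ lam * c := by positivity
    exact mul_le_mul_of_nonneg_left h2 h3
  · intro c f hc hf h
    have h1 := hP2 (emb k (h, none)) ⟨h, rfl⟩ c _ hc.le (extk_lip hD k c hc f hf)
    rw [extk_emb] at h1
    exact h1
  · intro η hη
    obtain ⟨K, hK, hKP⟩ := hP3 (((k : ℝ) + 1) ^ 2) η hη
    obtain ⟨b, hb⟩ := (hK.image mOf).bddAbove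
    refine ⟨b + 1, fun c f hc hf hsupp a => ?_⟩
    refine hKP (emb k a) (dist_base hD k a) c _ hc.le (extk_lip hD k c hc f hf) ?_
    intro z hz
    by_contra hne
    by_cases hr : ∃ a', emb k a' = z
    · obtain ⟨⟨h, q⟩, rfl⟩ := hr
      rw [extk_emb] at hne
      obtain ⟨m, z', rfl, hm⟩ := hsupp h q hne
      have : mOf (emb k (h, some ⟨m, z'⟩)) ≤ b := hb ⟨_, hz, rfl⟩
      simp only [mOf, emb] at this
      omega
    · exact hne (extk_of_not k f z (fun a' ha' => hr ⟨a', ha'⟩))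

include hD in
theorem no_BAP (lam : ℝ) : ¬ HasBAP lam (LipFree VB none) := by
  intro hBAP
  have hlam : 0 ≤ lam := by
    obtain ⟨T, _, hT, _⟩ := hBAP ∅ isCompact_empty 1 one_pos
    exact (norm_nonneg T).trans hT
  obtain ⟨k, hk⟩ := exists_nat_ge (3000 * (4 * lam + 2))
  obtain ⟨Q, hQ⟩ := exists_LOp hD k lam hlam hBAP
  have hk0 : (0 : ℝ) ≤ k := Nat.cast_nonneg k
  have hl : (1 : ℝ) ≤ (k : ℝ) + 1 := by linarith
  have hl0 : (0 : ℝ) < (k : ℝ) + 1 := by linarith
  refine no_LOp (phik k) (Rk k) (((k : ℝ) + 1) ^ 2) ((k : ℝ) + 1) Q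
    (fun g hg hn => gphi_girth _ g hg hn) (by positivity) hl (by nlinarith) ?_ hlam zero_le_one ?_ hQ
  · unfold Rk
    push_cast
    linarith
  · have e : lam * (2 / ((k : ℝ) + 1)) + lam * (2 / ((k : ℝ) + 1) ^ 2) * ((k : ℝ) + 1)
        + 1 * (2 / ((k : ℝ) + 1) ^ 2) = (4 * lam + 2 / ((k : ℝ) + 1)) / ((k : ℝ) + 1) := by
      field_simp
      ring
    rw [e, div_le_iff₀ hl0]
    have h2 : 2 / ((k : ℝ) + 1) ≤ 2 := by
      rw [div_le_iff₀ hl0]; linarith
    linarith

end metric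

theorem main_BAP :
    ∃ (M : Type) (_ : MetricSpace M) (o : M), Countable M ∧
      (∀ x y : M, x ≠ y → 1 ≤ dist x y) ∧ ∀ lam : ℝ, ¬ HasBAP lam (LipFree M o) := by
  obtain ⟨inst, hD⟩ := exists_dual_metric AdmG wB admG_nonempty admG_bdd admG_sep
  exact ⟨VB, inst, none, inferInstance, fun x y hxy => one_le_dist hD x y hxy,
    fun lam => no_BAP hD lam⟩

end Vale.Agent.P090
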