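import Vale.Agent.P090.BWalk
import Vale.Agent.P090.BFlow

/-!
Module E: test functions.  From the layer data `LOp` we build a `Flow` and conclude.
-/

namespace Vale.Agent.P090

open Classical Finset

/-- The cutoff profile. -/
noncomputable def cf (W : ℝ) (n : ℕ) : ℝ := max 0 (min 1 (2 - n / W))

theorem cf_nonneg (W : ℝ) (n : ℕ) : 0 ≤ cf W n := le_max_left _ _

theorem cf_le_one (W : ℝ) (n : ℕ) : cf W n ≤ 1 :=
  max_le zero_le_one (min_le_left _ _)

theorem abs_cf_le (W : ℝ) (n : ℕ) : |cf W n| ≤ 1 := by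
  rw [abs_of_nonneg (cf_nonneg W n)]; exact cf_le_one W n

theorem cf_eq_zero {W : ℝ} (hW : 0 < W) {n : ℕ} (h : 2 * W ≤ n) : cf W n = 0 := by
  unfold cf
  apply max_eq_left
  apply (min_le_right _ _).trans
  have : 2 ≤ (n : ℝ) / W := by rw [le_div_iff₀ hW]; exact h
  linarith

theorem cf_eq_one {W : ℝ} (hW : 0 < W) {n : ℕ} (h : (n : ℝ) ≤ W) : cf W n = 1 := by
  unfold cf
  have : (n : ℝ) / W ≤ 1 := by rw [div_le_one hW]; exact h
  rw [min_eq_left (by linarith), max_eq_right zero_le_one]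

theorem cf_lip {W : ℝ} (hW : 0 < W) {n n' : ℕ} (h1 : n ≤ n' + 1) (h2 : n' ≤ n + 1) :
    |cf W n - cf W n'| ≤ 1 / W := by
  unfold cf
  have e1 : |max 0 (min 1 (2 - (n : ℝ) / W)) - max 0 (min 1 (2 - (n' : ℝ) / W))|
      ≤ |min 1 (2 - (n : ℝ) / W) - min 1 (2 - (n' : ℝ) / W)| := by
    rw [max_comm 0, max_comm 0]
    exact abs_max_sub_max_le_abs _ _ _
  have e2 : |min 1 (2 - (n : ℝ) / W) - min 1 (2 - (n' : ℝ) / W)|
      ≤ |(2 - (n : ℝ) / W) - (2 - (n' : ℝ) / W)| := by
    have := abs_min_sub_min_le_max 1 (2 - (n : ℝ) / W) 1 (2 - (n' : ℝ) / W)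
    simpa using this
  refine e1.trans (e2.trans ?_)
  have e3 : (2 - (n : ℝ) / W) - (2 - (n' : ℝ) / W) = ((n' : ℝ) - n) / W := by ring
  rw [e3, abs_div, abs_of_pos hW]
  apply div_le_div_of_nonneg_right _ hW.le
  rw [abs_le]
  have h1' : (n : ℝ) ≤ n' + 1 := by exact_mod_cast h1
  have h2' : (n' : ℝ) ≤ n + 1 := by exact_mod_cast h2
  constructor <;> linarith

section layer

variable {H : Type} [Group H] (φ : FG →* H) (R : ℕ) (W : ℝ)

/-- The cutoff function around the observer `y`. -/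
noncomputable def chi (y a : H × Pt) : ℝ := cf W (wl φ R (a.1⁻¹ * y.1))

/-- The label of the point `a` as seen from the observer `y`. -/
noncomputable def lab (y a : H × Pt) : Lab Pt :=
  walk step (dec φ R (a.1⁻¹ * y.1)).toWord a.2

theorem kk_edge (h hy : H) (x : Letter) :
    (h * φ (lg x))⁻¹ * hy = φ (lg (linv x)) * (h⁻¹ * hy) := by
  rw [lg_linv, map_inv, mul_inv_rev, mul_assoc]

theorem kk_move (h hy : H) (x : Letter) : h⁻¹ * (hy * φ (lg x)) = (h⁻¹ * hy) * φ (lg x) :=
  (mul_assoc _ _ _).symm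

theorem lab_valid (y a : H × Pt) : Valid step (lab φ R y a) :=
  walk_valid step _ FreeGroup.isReduced_toWord _

theorem lab_length (y a : H × Pt) : (lab φ R y a).1.length ≤ R :=
  (walk_length_le step _ _).trans (norm_dec_le φ R _)

theorem lab_pc (y a : H × Pt) : pc (lab φ R y a).2 = pc a.2 := walk_pc _ _

variable (hg : ∀ g : FG, g ≠ 1 → g.norm ≤ 2 * R → φ g ≠ 1)

include hg in
theorem lab_edge {x : Letter} {q q' : Pt} (hst : step x q = some q') (h : H) (y : H × Pt)
    (hd : wl φ R (h⁻¹ * y.1) + 1 ≤ R) :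
    lab φ R y (h * φ (lg x), q') = lab φ R y (h, q) := by
  obtain ⟨g, hgn, hgk⟩ := exists_of_wl_le φ R (by omega : wl φ R (h⁻¹ * y.1) ≤ R)
  have hn : ((lg x)⁻¹ * g).norm ≤ R := by
    have := FreeGroup.norm_mul_le (lg x)⁻¹ g
    rw [FreeGroup.norm_inv_eq, norm_lg] at this
    omega
  unfold lab
  simp only
  rw [kk_edge, ← hgk, lg_linv, ← map_mul, dec_phi φ R hg g (by omega), dec_phi φ R hg _ hn]
  exact walk_head step step_rev hst g

include hg in
theorem lab_move (x : Letter) (y a : H × Pt) (q' : Pt)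
    (hd : wl φ R (a.1⁻¹ * y.1) + 1 ≤ R) :
    lab φ R (y.1 * φ (lg x), q') a = beta step x (lab φ R y a) := by
  obtain ⟨g, hgn, hgk⟩ := exists_of_wl_le φ R (by omega : wl φ R (a.1⁻¹ * y.1) ≤ R)
  have hn : (g * lg x).norm ≤ R := by
    have := FreeGroup.norm_mul_le g (lg x)
    rw [norm_lg] at this
    omega
  unfold lab
  simp only
  rw [kk_move, ← hgk, ← map_mul, dec_phi φ R hg g (by omega), dec_phi φ R hg _ hn]
  exact walk_tail step step_rev x g a.2

theorem chi_nonneg (y a : H × Pt) : 0 ≤ chi φ R W y a := cf_nonneg _ _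

theorem abs_chi_le (y a : H × Pt) : |chi φ R W y a| ≤ 1 := abs_cf_le _ _

theorem chi_edge (hW : 0 < W) (y : H × Pt) (h : H) (x : Letter) (q q' : Pt) :
    |chi φ R W y (h, q) - chi φ R W y (h * φ (lg x), q')| ≤ 1 / W := by
  unfold chi
  simp only
  rw [kk_edge]
  exact cf_lip hW (le_wl_mul_left φ R _ _) (wl_mul_left_le φ R _ _)

theorem chi_move (hW : 0 < W) (y a : H × Pt) (x : Letter) (q' : Pt) :
    |chi φ R W y a - chi φ R W (y.1 * φ (lg x), q') a| ≤ 1 / W := by
  unfold chi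
  simp only
  rw [kk_move]
  exact cf_lip hW (le_wl_mul_right φ R _ _) (wl_mul_right_le φ R _ _)

theorem chi_eq_zero (hW : 0 < W) (y a : H × Pt) (h : 2 * W ≤ wl φ R (a.1⁻¹ * y.1)) :
    chi φ R W y a = 0 := cf_eq_zero hW h

/-- The region: terminal points and pieces below `J`. -/
def regP (J : ℕ) (q : Pt) : Prop := ∀ m ∈ pc q, m < J

variable (l : ℝ)

theorem adm_chi (hW : 0 < W) (hl : 1 ≤ l) (y : H × Pt) :
    AdmL φ l W (1 / W) (chi φ R W y) where
  edge h q x q' _ := chi_edge φ R W hW y h x q q'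
  term h q := by
    have : chi φ R W y (h, q) = chi φ R W y (h, none) := rfl
    rw [this, sub_self, abs_zero]
    positivity
  bdd a := by
    rw [one_div, inv_mul_cancel₀ hW.ne']
    exact abs_chi_le φ R W y a

theorem adm_far (hW : 0 < W) (hl : 1 ≤ l) (hlW : l ≤ W) (y : H × Pt) (J : ℕ) :
    AdmL φ l W (1 / l) (fun a => if regP J a.2 then 0 else chi φ R W y a) where
  edge h q x q' hst := by
    have hpc : regP J q' ↔ regP J q := by unfold regP; rw [step_pc hst]
    have h1 : 1 / W ≤ 1 / l := one_div_le_one_div_of_le (by linarith) hlW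
    simp only
    by_cases hr : regP J q
    · rw [if_pos hr, if_pos (hpc.mpr hr), sub_self, abs_zero]
      positivity
    · rw [if_neg hr, if_neg (fun h' => hr (hpc.mp h'))]
      exact (chi_edge φ R W hW y h x q q').trans h1
  term h q := by
    have hn : regP J (none : Pt) := by intro m hm; simp [pc] at hm
    have hl0 : l ≠ 0 := by linarith
    simp only
    rw [if_pos hn, sub_zero, one_div, inv_mul_cancel₀ hl0]
    split_ifs
    · simp
    · exact abs_chi_le φ R W y _
  bdd a := by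
    have h1 : 1 ≤ 1 / l * W := by
      rw [one_div, inv_mul_eq_div, le_div_iff₀ (by linarith)]
      linarith
    refine le_trans ?_ h1
    split_ifs
    · simp
    · exact abs_chi_le φ R W y _

theorem chi_far (hW : 0 < W) (hR : 2 * W + 2 ≤ R) (y : H × Pt) (h : H)
    (hd : ¬ wl φ R (h⁻¹ * y.1) + 1 ≤ R) (q : Pt) : chi φ R W y (h, q) = 0 := by
  apply chi_eq_zero φ R W hW
  have h1 : R ≤ wl φ R (h⁻¹ * y.1) := by omega
  have h2 : (R : ℝ) ≤ wl φ R (h⁻¹ * y.1) := by exact_mod_cast h1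
  simp only
  linarith

theorem chi_far_edge (hW : 0 < W) (hR : 2 * W + 2 ≤ R) (y : H × Pt) (h : H)
    (hd : ¬ wl φ R (h⁻¹ * y.1) + 1 ≤ R) (x : Letter) (q : Pt) :
    chi φ R W y (h * φ (lg x), q) = 0 := by
  apply chi_eq_zero φ R W hW
  have h0 := le_wl_mul_left φ R (linv x) (h⁻¹ * y.1)
  have h1 : R ≤ wl φ R (φ (lg (linv x)) * (h⁻¹ * y.1)) + 1 := by omega
  have h2 : (R : ℝ) ≤ wl φ R (φ (lg (linv x)) * (h⁻¹ * y.1)) + 1 := by exact_mod_cast h1
  simp only
  rw [kk_edge]
  linarith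

theorem chi_far_move (hW : 0 < W) (hR : 2 * W + 2 ≤ R) (y : H × Pt) (h : H)
    (hd : ¬ wl φ R (h⁻¹ * y.1) + 1 ≤ R) (x0 : Letter) (q0 q : Pt) :
    chi φ R W (y.1 * φ (lg x0), q0) (h, q) = 0 := by
  apply chi_eq_zero φ R W hW
  have h0 := le_wl_mul_right φ R x0 (h⁻¹ * y.1)
  have h1 : R ≤ wl φ R ((h⁻¹ * y.1) * φ (lg x0)) + 1 := by omega
  have h2 : (R : ℝ) ≤ wl φ R ((h⁻¹ * y.1) * φ (lg x0)) + 1 := by exact_mod_cast h1
  simp only
  rw [kk_move]
  linarith

theorem chi_far_both (hW : 0 < W) (hR : 2 * W + 2 ≤ R) (y : H × Pt) (h : H)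
    (hd : ¬ wl φ R (h⁻¹ * y.1) + 1 ≤ R) (x0 : Letter) (q0 : Pt) (x : Letter) (q : Pt) :
    chi φ R W (y.1 * φ (lg x0), q0) (h * φ (lg x), q) = 0 := by
  apply chi_eq_zero φ R W hW
  have h0 := le_wl_mul_right φ R x0 (h⁻¹ * y.1)
  have h0' := le_wl_mul_left φ R (linv x) ((h⁻¹ * y.1) * φ (lg x0))
  have h1 : R ≤ wl φ R (φ (lg (linv x)) * ((h⁻¹ * y.1) * φ (lg x0))) + 2 := by omega
  have h2 : (R : ℝ) ≤ wl φ R (φ (lg (linv x)) * ((h⁻¹ * y.1) * φ (lg x0))) + 2 := by
    exact_mod_cast h1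
  simp only
  rw [kk_edge, kk_move]
  linarith

include hg in
theorem adm_F (hW : 0 < W) (hl : 1 ≤ l) (hlW : l ≤ W) (hR : 2 * W + 2 ≤ R) (y : H × Pt)
    (τ : Lab Pt → ℝ) (hτ : ∀ p, |τ p| ≤ 1) :
    AdmL φ l W (2 / l) (fun a => τ (lab φ R y a) * chi φ R W y a) where
  edge h q x q' hst := by
    have hl0 : 0 < l := by linarith
    by_cases hd : wl φ R (h⁻¹ * y.1) + 1 ≤ R
    · rw [lab_edge φ R hg hst h y hd, ← mul_sub, abs_mul]
      calc _ ≤ 1 * (1 / W) :=
            mul_le_mul (hτ _) (chi_edge φ R W hW y h x q q') (abs_nonneg _) zero_le_one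
        _ ≤ 1 / l := by rw [one_mul]; exact one_div_le_one_div_of_le hl0 hlW
        _ ≤ 2 / l := by gcongr; norm_num
    · rw [chi_far φ R W hW hR y h hd, chi_far_edge φ R W hW hR y h hd]
      simp only [mul_zero, sub_self, abs_zero]
      positivity
  term h q := by
    have hl0 : l ≠ 0 := by linarith
    have hb : ∀ a, |τ (lab φ R y a) * chi φ R W y a| ≤ 1 := by
      intro a
      rw [abs_mul]
      calc _ ≤ (1 : ℝ) * 1 := mul_le_mul (hτ _) (abs_chi_le φ R W y a) (abs_nonneg _) zero_le_one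
        _ = 1 := one_mul 1
    rw [div_mul_cancel₀ _ hl0]
    calc _ ≤ _ + _ := abs_sub _ _
      _ ≤ 1 + 1 := add_le_add (hb _) (hb _)
      _ = 2 := by norm_num
  bdd a := by
    have hl0 : 0 < l := by linarith
    have h1 : 1 ≤ 2 / l * W := by
      rw [div_mul_eq_mul_div, le_div_iff₀ hl0]
      linarith
    refine le_trans ?_ h1
    rw [abs_mul]
    calc _ ≤ (1 : ℝ) * 1 := mul_le_mul (hτ _) (abs_chi_le φ R W y a) (abs_nonneg _) zero_le_one
      _ = 1 := one_mul 1

include hg in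
theorem adm_G (hW : 0 < W) (hl : 1 ≤ l) (hlW : l ≤ W) (hR : 2 * W + 2 ≤ R) (y : H × Pt)
    (x0 : Letter) (q0 : Pt) (τ : Lab Pt → ℝ) (hτ : ∀ p, |τ p| ≤ 1) :
    AdmL φ l W (2 / W) (fun a => τ (lab φ R y a) *
      (chi φ R W y a - chi φ R W (y.1 * φ (lg x0), q0) a)) := by
  have hb : ∀ a, |τ (lab φ R y a) * (chi φ R W y a - chi φ R W (y.1 * φ (lg x0), q0) a)|
      ≤ 1 / W := by
    intro a
    rw [abs_mul]
    calc _ ≤ 1 * (1 / W) :=
          mul_le_mul (hτ _) (chi_move φ R W hW y a x0 q0) (abs_nonneg _) zero_le_one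
      _ = 1 / W := one_mul _
  have hW1 : 0 < 1 / W := by positivity
  constructor
  · intro h q x q' hst
    by_cases hd : wl φ R (h⁻¹ * y.1) + 1 ≤ R
    · rw [lab_edge φ R hg hst h y hd, ← mul_sub, abs_mul]
      have e : chi φ R W y (h, q) - chi φ R W (y.1 * φ (lg x0), q0) (h, q)
          - (chi φ R W y (h * φ (lg x), q') - chi φ R W (y.1 * φ (lg x0), q0) (h * φ (lg x), q'))
          = (chi φ R W y (h, q) - chi φ R W y (h * φ (lg x), q'))
            - (chi φ R W (y.1 * φ (lg x0), q0) (h, q)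
              - chi φ R W (y.1 * φ (lg x0), q0) (h * φ (lg x), q')) := by ring
      rw [e]
      calc _ ≤ 1 * (1 / W + 1 / W) := by
            apply mul_le_mul (hτ _) _ (abs_nonneg _) zero_le_one
            exact (abs_sub _ _).trans (add_le_add (chi_edge φ R W hW y h x q q')
              (chi_edge φ R W hW _ h x q q'))
        _ = 2 / W := by ring
    · rw [chi_far φ R W hW hR y h hd, chi_far_edge φ R W hW hR y h hd,
        chi_far_move φ R W hW hR y h hd, chi_far_both φ R W hW hR y h hd]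
      simp only [mul_zero, sub_self, abs_zero]
      positivity
  · intro h q
    calc _ ≤ _ + _ := abs_sub _ _
      _ ≤ 1 / W + 1 / W := add_le_add (hb _) (hb _)
      _ = 2 / W * 1 := by ring
      _ ≤ 2 / W * l := by gcongr
  · intro a
    refine (hb a).trans ?_
    rw [div_mul_cancel₀ _ hW.ne', div_le_iff₀ hW]
    linarith

/-- The elementary test functions. -/
noncomputable def tf (y : H × Pt) (p : Lab Pt) : H × Pt → ℝ :=
  fun a => if lab φ R y a = p then chi φ R W y a else 0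

/-- Restriction of a weight to a finite set of labels. -/
noncomputable def tS (S : Finset (Lab Pt)) (τ : Lab Pt → ℝ) : Lab Pt → ℝ :=
  fun p => if p ∈ S then τ p else 0

theorem abs_tS_le (S : Finset (Lab Pt)) (τ : Lab Pt → ℝ) (hτ : ∀ p, |τ p| ≤ 1) (p : Lab Pt) :
    |tS S τ p| ≤ 1 := by
  unfold tS
  split_ifs
  · exact hτ p
  · simp

theorem sum_tf (y : H × Pt) (S : Finset (Lab Pt)) (τ : Lab Pt → ℝ) :
    ∑ p ∈ S, τ p • tf φ R W y p = fun a => tS S τ (lab φ R y a) * chi φ R W y a := by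
  funext a
  simp only [Finset.sum_apply, Pi.smul_apply, smul_eq_mul, tf, tS, mul_ite, mul_zero]
  rw [Finset.sum_ite_eq]
  split_ifs <;> simp

include hg in
theorem sum_tf_move (hW : 0 < W) (hR : 2 * W + 2 ≤ R) (y : H × Pt) (x0 : Letter) (q0 : Pt)
    (S : Finset (Lab Pt)) (hS : ∀ p ∈ S, Valid step p) (τ : Lab Pt → ℝ) :
    ∑ p ∈ S, τ p • tf φ R W (y.1 * φ (lg x0), q0) (beta step x0 p)
      = fun a => tS S τ (lab φ R y a) * chi φ R W (y.1 * φ (lg x0), q0) a := by
  funext a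
  simp only [Finset.sum_apply, Pi.smul_apply, smul_eq_mul, tf]
  by_cases hd : wl φ R (a.1⁻¹ * y.1) + 1 ≤ R
  · rw [lab_move φ R hg x0 y a q0 hd]
    have hiff : ∀ p ∈ S, (beta step x0 (lab φ R y a) = beta step x0 p ↔ lab φ R y a = p) := by
      intro p hp
      constructor
      · intro h
        have h1 := beta_inv step step_rev x0 _ (lab_valid φ R y a)
        have h2 := beta_inv step step_rev x0 _ (hS p hp)
        rw [← h1, h, h2]
      · intro h; rw [h]
    rw [Finset.sum_congr rfl (fun p hp => by rw [if_congr (hiff p hp) rfl rfl])]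
    simp only [tS, mul_ite, mul_zero]
    rw [Finset.sum_ite_eq]
    split_ifs <;> simp
  · have h0 : chi φ R W (y.1 * φ (lg x0), q0) a = 0 :=
      chi_far_move φ R W hW hR y a.1 hd x0 q0 a.2
    rw [h0]
    simp

theorem chi_self (hW : 0 < W) (y : H × Pt) (q : Pt) : chi φ R W y (y.1, q) = 1 := by
  unfold chi
  simp only [inv_mul_cancel]
  rw [wl_one]
  apply cf_eq_one hW
  simpa using hW.le

theorem chi_next (hW : 1 ≤ W) (y : H × Pt) (x : Letter) (q : Pt) :
    chi φ R W y (y.1 * φ (lg x), q) = 1 := by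
  unfold chi
  simp only
  rw [kk_edge, inv_mul_cancel]
  apply cf_eq_one (by linarith)
  have h1 := wl_mul_left_le φ R (linv x) (1 : H)
  rw [wl_one] at h1
  have h2 : (wl φ R (φ (lg (linv x)) * 1) : ℝ) ≤ 1 := by exact_mod_cast h1
  linarith

variable (Q : H × Pt → ((H × Pt → ℝ) →ₗ[ℝ] ℝ))

/-- The signed label weights seen from `y`. -/
noncomputable def nu (y : H × Pt) (p : Lab Pt) : ℝ := Q y (tf φ R W y p)

variable {lam e1 : ℝ}

include hg in
theorem tv_nu (hQ : LOp φ l W lam e1 Q) (hW : 0 < W) (hl : 1 ≤ l) (hlW : l ≤ W)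
    (hR : 2 * W + 2 ≤ R) (h : H) {q q' : Pt} {x : Letter} (hst : step x q = some q')
    (S : Finset (Lab Pt)) (hS : ∀ p ∈ S, Valid step p) :
    ∑ p ∈ S, |nu φ R W Q (h * φ (lg x), q') (beta step x p) - nu φ R W Q (h, q) p|
      ≤ lam * (2 / l) + lam * (2 / W) * l + e1 * (2 / W) := by
  set y : H × Pt := (h, q) with hy
  set y' : H × Pt := (h * φ (lg x), q') with hy'
  set τ : Lab Pt → ℝ := fun p =>
    if 0 ≤ nu φ R W Q y' (beta step x p) - nu φ R W Q y p then 1 else -1 with hτdef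
  have hτ : ∀ p, |τ p| ≤ 1 := by
    intro p
    simp only [hτdef]
    split_ifs <;> simp
  have habs : ∀ p, |nu φ R W Q y' (beta step x p) - nu φ R W Q y p|
      = τ p * nu φ R W Q y' (beta step x p) - τ p * nu φ R W Q y p := by
    intro p
    simp only [hτdef]
    split_ifs with hc
    · rw [abs_of_nonneg hc]; ring
    · rw [abs_of_neg (not_le.mp hc)]; ring
  set F : H × Pt → ℝ := fun a => tS S τ (lab φ R y a) * chi φ R W y a with hF
  set F' : H × Pt → ℝ := fun a => tS S τ (lab φ R y a) * chi φ R W y' a with hF'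
  set G : H × Pt → ℝ := fun a => tS S τ (lab φ R y a) * (chi φ R W y a - chi φ R W y' a) with hG
  have e1' : ∑ p ∈ S, τ p * nu φ R W Q y p = Q y F := by
    rw [hF, ← sum_tf φ R W y S τ, map_sum]
    apply Finset.sum_congr rfl
    intro p _
    rw [map_smul, smul_eq_mul]
    rfl
  have e2' : ∑ p ∈ S, τ p * nu φ R W Q y' (beta step x p) = Q y' F' := by
    have := sum_tf_move φ R W hg hW hR y x q' S hS τ
    rw [hF', hy', ← this, map_sum]
    apply Finset.sum_congr rfl
    intro p _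
    rw [map_smul, smul_eq_mul]
    rfl
  have e3 : F' = F - G := by
    funext a
    simp only [hF, hF', hG, Pi.sub_apply]
    ring
  have hW1 : 1 ≤ W := hl.trans hlW
  have aF : AdmL φ l W (2 / l) F := adm_F φ R W hg l hW hl hlW hR y _ (abs_tS_le S τ hτ)
  have aG : AdmL φ l W (2 / W) G := adm_G φ R W hg l hW hl hlW hR y x q' _ (abs_tS_le S τ hτ)
  have b1 := hQ.edge (2 / l) F (by positivity) aF h q x q' hst
  have b2 := hQ.term (2 / W) G (by positivity) aG (h * φ (lg x)) q'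
  have b3 := hQ.fix (2 / W) G (by positivity) aG (h * φ (lg x))
  have hG0 : G (h * φ (lg x), none) = 0 := by
    simp only [hG]
    rw [chi_next φ R W hW1 y x none, hy', chi_self φ R W hW _ none]
    simp
  rw [hG0, sub_zero] at b3
  rw [Finset.sum_congr rfl (fun p _ => habs p), Finset.sum_sub_distrib, e1', e2', e3, map_sub]
  have c1 := abs_le.mp b1
  have c2 := abs_le.mp b2
  have c3 := abs_le.mp b3
  linarith [c1.1, c1.2, c2.1, c2.2, c3.1, c3.2]

end layer

/-- The finite set of points of the region. -/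
noncomputable def regF (J : ℕ) : Finset Pt :=
  insert none (((Finset.range J).sigma (fun m => (Finset.univ : Finset (Yf m)))).image some)

theorem mem_regF (J : ℕ) (q : Pt) : q ∈ regF J ↔ regP J q := by
  unfold regF regP pc
  cases q with
  | none => simp
  | some a =>
    obtain ⟨m, z⟩ := a
    simp

theorem not_regP {J : ℕ} {q : Pt} (h : ¬ regP J q) : ∃ m z, q = some ⟨m, z⟩ ∧ J ≤ m := by
  unfold regP pc at h
  cases q with
  | none => simp at h
  | some a =>
    obtain ⟨m, z⟩ := a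
    simp at h
    exact ⟨m, z, rfl, h⟩

/-- The finite set of words of length at most `R`. -/
noncomputable def wordsF (R : ℕ) : Finset (List Letter) :=
  (List.finite_length_le Letter R).toFinset

theorem mem_wordsF (R : ℕ) (w : List Letter) : w ∈ wordsF R ↔ w.length ≤ R := by
  simp [wordsF]

/-- The finite set of labels. -/
noncomputable def LsF (R J : ℕ) : Finset (Lab Pt) := wordsF R ×ˢ regF J

theorem mem_LsF (R J : ℕ) (p : Lab Pt) : p ∈ LsF R J ↔ p.1.length ≤ R ∧ regP J p.2 := by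
  rw [LsF, Finset.mem_product, mem_wordsF, mem_regF]

section layer2

variable {H : Type} [Group H] (φ : FG →* H) (R : ℕ) (W : ℝ) (l : ℝ)
variable (Q : H × Pt → ((H × Pt → ℝ) →ₗ[ℝ] ℝ)) {lam e1 : ℝ}

theorem mass_nu (hQ : LOp φ l W lam e1 Q) (hW : 0 < W) (hl : 1 ≤ l) (hlW : l ≤ W)
    (η : ℝ) (J : ℕ)
    (hJ : ∀ c f, 0 < c → AdmL φ l W c f →
      (∀ h q, f (h, q) ≠ 0 → ∃ m z, q = some ⟨m, z⟩ ∧ J ≤ m) → ∀ a, |Q a f| ≤ η * c)
    (y : H × Pt) :
    1 - e1 * (1 / W) - lam * (1 / W) * l - η * (1 / l) ≤ ∑ p ∈ LsF R J, nu φ R W Q y p := by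
  set far : H × Pt → ℝ := fun a => if regP J a.2 then 0 else chi φ R W y a with hfar
  have e0 : ∑ p ∈ LsF R J, nu φ R W Q y p = Q y (chi φ R W y - far) := by
    have h1 := sum_tf φ R W y (LsF R J) (fun _ => 1)
    have h2 : (fun a => tS (LsF R J) (fun _ => 1) (lab φ R y a) * chi φ R W y a)
        = chi φ R W y - far := by
      funext a
      have hiff : lab φ R y a ∈ LsF R J ↔ regP J a.2 := by
        rw [mem_LsF]
        constructor
        · intro h
          have := h.2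
          unfold regP at this ⊢
          rwa [lab_pc] at this
        · intro h
          refine ⟨lab_length φ R y a, ?_⟩
          unfold regP at h ⊢
          rwa [lab_pc]
      simp only [tS, hfar, Pi.sub_apply]
      by_cases hr : regP J a.2
      · rw [if_pos (hiff.mpr hr), if_pos hr]; ring
      · rw [if_neg (fun h' => hr (hiff.mp h')), if_neg hr]; ring
    rw [← h2, ← h1, map_sum]
    apply Finset.sum_congr rfl
    intro p _
    rw [one_smul]
    rfl
  have a1 := adm_chi φ R W l hW hl y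
  have a2 := adm_far φ R W l hW hl hlW y J
  have b1 := hQ.term (1 / W) _ (by positivity) a1 y.1 y.2
  have b2 := hQ.fix (1 / W) _ (by positivity) a1 y.1
  have b3 := hJ (1 / l) far (by positivity) a2 (by
    intro h q hne
    simp only [hfar] at hne
    by_cases hr : regP J q
    · rw [if_pos hr] at hne; exact absurd rfl hne
    · exact not_regP hr) y
  rw [chi_self φ R W hW y none] at b2
  rw [e0, map_sub]
  have c1 := abs_le.mp b1
  have c2 := abs_le.mp b2
  have c3 := abs_le.mp b3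
  have hyy : (y.1, y.2) = y := rfl
  rw [hyy] at c1
  linarith [c1.1, c1.2, c2.1, c2.2, c3.1, c3.2]

theorem nu_eq_zero (y : H × Pt) (p : Lab Pt) (h : ∀ a, lab φ R y a ≠ p) :
    nu φ R W Q y p = 0 := by
  have : tf φ R W y p = 0 := by
    funext a
    simp only [tf, Pi.zero_apply]
    rw [if_neg (h a)]
  unfold nu
  rw [this, map_zero]

end layer2

section final

variable {H : Type} [Group H] [Fintype H] (φ : FG →* H) (R : ℕ) (W : ℝ) (l : ℝ)
variable (Q : H × Pt → ((H × Pt → ℝ) →ₗ[ℝ] ℝ)) {lam e1 : ℝ}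

/-- The averaged absolute label weights. -/
noncomputable def Nf (J : ℕ) (u : Yf J) (p : Lab Pt) : ℝ :=
  if regP J p.2 then (Fintype.card H : ℝ)⁻¹ * ∑ h : H, |nu φ R W Q (h, some ⟨J, u⟩) p| else 0

theorem card_H_pos : (0 : ℝ) < Fintype.card H := by
  have : Nonempty H := ⟨1⟩
  exact_mod_cast Fintype.card_pos

variable (hg : ∀ g : FG, g ≠ 1 → g.norm ≤ 2 * R → φ g ≠ 1)

include hg in
theorem flow_Nf (hQ : LOp φ l W lam e1 Q) (hW : 0 < W) (hl : 1 ≤ l) (hlW : l ≤ W)
    (hR : 2 * W + 2 ≤ R) (J : ℕ) :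
    Flow J (Nf φ R W Q J) (LsF R J) (lam * (2 / l) + lam * (2 / W) * l + e1 * (2 / W)) where
  nonneg u p := by
    unfold Nf
    split_ifs
    · positivity
    · exact le_refl _
  supp u p hp := by
    unfold Nf
    split_ifs with hr
    · have hlen : ¬ p.1.length ≤ R := fun h => hp ((mem_LsF R J p).mpr ⟨h, hr⟩)
      have : ∀ h : H, |nu φ R W Q (h, some ⟨J, u⟩) p| = 0 := by
        intro h
        rw [nu_eq_zero φ R W Q _ p (fun a ha => hlen (ha ▸ lab_length φ R _ a)), abs_zero]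
      simp [this]
    · rfl
  valid u p hp := by
    unfold Nf
    split_ifs with hr
    · have : ∀ h : H, |nu φ R W Q (h, some ⟨J, u⟩) p| = 0 := by
        intro h
        rw [nu_eq_zero φ R W Q _ p (fun a ha => hp (ha ▸ lab_valid φ R _ a)), abs_zero]
      simp [this]
    · rfl
  reg u r m z hm := by
    unfold Nf
    rw [if_neg]
    intro h
    have := h m (by simp [pc])
    omega
  tv u x u' hst S hS := by
    have hc := card_H_pos (H := H)
    set c : ℝ := (Fintype.card H : ℝ)⁻¹ with hcdef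
    have hc0 : 0 ≤ c := by positivity
    have hpt : ∀ p, |Nf φ R W Q J u' (beta step x p) - Nf φ R W Q J u p|
        ≤ c * ∑ h : H, |nu φ R W Q (h * φ (lg x), some ⟨J, u'⟩) (beta step x p)
            - nu φ R W Q (h, some ⟨J, u⟩) p| := by
      intro p
      have hiff : regP J (beta step x p).2 ↔ regP J p.2 := by
        unfold regP; rw [beta_pc]
      unfold Nf
      by_cases hr : regP J p.2
      · rw [if_pos hr, if_pos (hiff.mpr hr), ← mul_sub, abs_mul, abs_of_nonneg hc0]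
        apply mul_le_mul_of_nonneg_left _ hc0
        have hre : ∑ h : H, |nu φ R W Q (h, some ⟨J, u'⟩) (beta step x p)|
            = ∑ h : H, |nu φ R W Q (h * φ (lg x), some ⟨J, u'⟩) (beta step x p)| :=
          (Equiv.sum_comp (Equiv.mulRight (φ (lg x)))
            (fun h => |nu φ R W Q (h, some ⟨J, u'⟩) (beta step x p)|)).symm
        rw [hre, ← Finset.sum_sub_distrib]
        refine (Finset.abs_sum_le_sum_abs _ _).trans ?_
        apply Finset.sum_le_sum
        intro h _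
        exact abs_abs_sub_abs_le_abs_sub _ _
      · rw [if_neg hr, if_neg (fun h' => hr (hiff.mp h')), sub_self, abs_zero]
        positivity
    calc ∑ p ∈ S, |Nf φ R W Q J u' (beta step x p) - Nf φ R W Q J u p|
        ≤ ∑ p ∈ S, c * ∑ h : H, |nu φ R W Q (h * φ (lg x), some ⟨J, u'⟩) (beta step x p)
            - nu φ R W Q (h, some ⟨J, u⟩) p| := Finset.sum_le_sum (fun p _ => hpt p)
      _ = c * ∑ h : H, ∑ p ∈ S, |nu φ R W Q (h * φ (lg x), some ⟨J, u'⟩) (beta step x p)
            - nu φ R W Q (h, some ⟨J, u⟩) p| := by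
          rw [← Finset.mul_sum, Finset.sum_comm]
      _ ≤ c * ∑ _h : H, (lam * (2 / l) + lam * (2 / W) * l + e1 * (2 / W)) := by
          apply mul_le_mul_of_nonneg_left _ hc0
          apply Finset.sum_le_sum
          intro h _
          exact tv_nu φ R W hg l Q hQ hW hl hlW hR h hst S hS
      _ = _ := by
          rw [Finset.sum_const, Finset.card_univ, nsmul_eq_mul, ← mul_assoc, hcdef,
            inv_mul_cancel₀ hc.ne', one_mul]

include hg in
theorem no_LOp (hW : 0 < W) (hl : 1 ≤ l) (hlW : l ≤ W) (hR : 2 * W + 2 ≤ R)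
    (hlam : 0 ≤ lam) (he1 : 0 ≤ e1)
    (hB : lam * (2 / l) + lam * (2 / W) * l + e1 * (2 / W) ≤ 1 / 3000) :
    ¬ LOp φ l W lam e1 Q := by
  intro hQ
  obtain ⟨J, hJ⟩ := hQ.tight (1 / 4) (by norm_num)
  refine no_flow J (Nf φ R W Q J) (LsF R J) _ (flow_Nf φ R W l Q hg hQ hW hl hlW hR J) ?_ hB
  intro u
  have hc := card_H_pos (H := H)
  have hm : ∀ h : H, 1 / 2 ≤ ∑ p ∈ LsF R J, |nu φ R W Q (h, some ⟨J, u⟩) p| := by
    intro h
    have h1 := mass_nu φ R W l Q hQ hW hl hlW (1 / 4) J hJ (h, some ⟨J, u⟩)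
    have h2 : ∑ p ∈ LsF R J, nu φ R W Q (h, some ⟨J, u⟩) p
        ≤ ∑ p ∈ LsF R J, |nu φ R W Q (h, some ⟨J, u⟩) p| :=
      Finset.sum_le_sum (fun p _ => le_abs_self _)
    have h3 : (1 : ℝ) / 4 * (1 / l) ≤ 1 / 4 := by
      have : 1 / l ≤ 1 := by rw [div_le_one (by linarith)]; exact hl
      nlinarith
    have h4 : 0 ≤ lam * (2 / l) := by positivity
    have h5 : lam * (2 / W) * l = 2 * (lam * (1 / W) * l) := by ring
    have h6 : e1 * (2 / W) = 2 * (e1 * (1 / W)) := by ring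
    have h7 : 0 ≤ lam * (1 / W) * l := by positivity
    have h8 : 0 ≤ e1 * (1 / W) := by positivity
    linarith
  have e : ∑ p ∈ LsF R J, Nf φ R W Q J u p
      = (Fintype.card H : ℝ)⁻¹ * ∑ h : H, ∑ p ∈ LsF R J, |nu φ R W Q (h, some ⟨J, u⟩) p| := by
    rw [Finset.sum_comm, Finset.mul_sum]
    apply Finset.sum_congr rfl
    intro p hp
    unfold Nf
    rw [if_pos ((mem_LsF R J p).mp hp).2]
  rw [e]
  calc (1 : ℝ) / 2 = (Fintype.card H : ℝ)⁻¹ * ∑ _h : H, (1 / 2 : ℝ) := by
        rw [Finset.sum_const, Finset.card_univ, nsmul_eq_mul, ← mul_assoc,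
          inv_mul_cancel₀ hc.ne', one_mul]
    _ ≤ _ := by
        apply mul_le_mul_of_nonneg_left _ (by positivity)
        exact Finset.sum_le_sum (fun h _ => hm h)

end final

end Vale.Agent.P090
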