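import Vale.Agent.P090.BDefs

/-!
Module C: word combinatorics.  Walks, labels, truncated word length and decoding.
-/

namespace Vale.Agent.P090

open Classical FreeGroup

theorem linv_linv (x : Letter) : linv (linv x) = x := by
  obtain ⟨a, b⟩ := x
  simp [linv]

theorem lg_linv (x : Letter) : lg (linv x) = (lg x)⁻¹ := by
  obtain ⟨a, b⟩ := x
  simp [lg, linv, FreeGroup.inv_mk, FreeGroup.invRev]

theorem toWord_lg (x : Letter) : (lg x).toWord = [x] := by
  simp [lg, FreeGroup.toWord_mk]

theorem norm_lg (x : Letter) : (lg x).norm = 1 := by
  simp [FreeGroup.norm, toWord_lg]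

theorem ne_linv_iff (y x : Letter) : y ≠ linv x ↔ (y.1 = x.1 → y.2 = x.2) := by
  obtain ⟨a, b⟩ := x
  obtain ⟨c, d⟩ := y
  simp only [linv, ne_eq, Prod.mk.injEq, not_and]
  constructor
  · intro h hc
    have := h hc
    cases b <;> cases d <;> simp_all
  · intro h hc
    have := h hc
    cases b <;> cases d <;> simp_all

section generic

variable {Q : Type} (st : Letter → Q → Option Q)

theorem walk_nil (q : Q) : walk st [] q = ([], q) := rfl

theorem walk_cons_some {x : Letter} {q q' : Q} (h : st x q = some q') (w : List Letter) :
    walk st (x :: w) q = walk st w q' := by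
  simp [walk, h]

theorem walk_cons_none {x : Letter} {q : Q} (h : st x q = none) (w : List Letter) :
    walk st (x :: w) q = (x :: w, q) := by
  simp [walk, h]

theorem walk_valid (w : List Letter) (hw : IsReduced w) (q : Q) : Valid st (walk st w q) := by
  induction w generalizing q with
  | nil => exact ⟨IsReduced.nil, by simp [walk_nil]⟩
  | cons x w ih =>
    cases h : st x q with
    | none =>
      rw [walk_cons_none st h]
      exact ⟨hw, by simpa using h⟩
    | some q' =>
      rw [walk_cons_some st h]
      exact ih (List.IsChain.tail hw) q'

theorem walk_length_le (w : List Letter) (q : Q) : (walk st w q).1.length ≤ w.length := by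
  induction w generalizing q with
  | nil => simp [walk_nil]
  | cons x w ih =>
    cases h : st x q with
    | none => rw [walk_cons_none st h]
    | some q' =>
      rw [walk_cons_some st h]
      exact (ih q').trans (by simp)

theorem tm_nil (x : Letter) : tm [] x = [x] := by simp [tm]

theorem tm_cons_cons (y z : Letter) (w : List Letter) (x : Letter) :
    tm (y :: z :: w) x = y :: tm (z :: w) x := by
  unfold tm
  rw [List.getLast?_cons_cons]
  split_ifs <;> simp

theorem beta_nil_some {x : Letter} {q q' : Q} (h : st x q = some q') :
    beta st x ([], q) = ([], q') := by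
  simp [beta, h]

theorem beta_nil_none {x : Letter} {q : Q} (h : st x q = none) :
    beta st x ([], q) = ([x], q) := by
  simp [beta, h, tm_nil]

theorem beta_cons (x y : Letter) (w : List Letter) (q : Q) :
    beta st x (y :: w, q) = (tm (y :: w) x, q) := by
  simp only [beta]

theorem walk_single (x : Letter) (q : Q) : walk st [x] q = beta st x ([], q) := by
  cases h : st x q with
  | none => rw [walk_cons_none st h, beta_nil_none st h]
  | some q' => rw [walk_cons_some st h, beta_nil_some st h, walk_nil]

/-- list level version of `walk_tail`; no reducedness needed. Induction on `w`. -/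
theorem walk_tm (hrev : Rev st) (x : Letter) (w : List Letter) (q : Q) :
    walk st (tm w x) q = beta st x (walk st w q) := by
  induction w generalizing q with
  | nil => rw [tm_nil, walk_nil, walk_single]
  | cons y w ih =>
    cases w with
    | nil =>
      by_cases hy : y = linv x
      · have htm : tm [y] x = [] := by simp [tm, hy]
        rw [htm, walk_nil]
        cases h : st y q with
        | none => rw [walk_cons_none st h, beta_cons, htm]
        | some q' =>
          rw [walk_cons_some st h, walk_nil]
          have := hrev y q q' h
          rw [hy, linv_linv] at this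
          rw [beta_nil_some st this]
      · have htm : tm [y] x = [y, x] := by simp [tm, hy]
        rw [htm]
        cases h : st y q with
        | none => rw [walk_cons_none st h, walk_cons_none st h, beta_cons, htm]
        | some q' => rw [walk_cons_some st h, walk_cons_some st h, walk_nil, walk_single]
    | cons z w =>
      rw [tm_cons_cons]
      cases h : st y q with
      | none => rw [walk_cons_none st h, walk_cons_none st h, beta_cons, tm_cons_cons]
      | some q' => rw [walk_cons_some st h, walk_cons_some st h, ih]

theorem reduce_append_single {L : List Letter} (hL : IsReduced L) (x : Letter) :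
    reduce (L ++ [x]) = tm L x := by
  unfold tm
  split_ifs with h
  · obtain ⟨L', rfl⟩ : ∃ L', L = L' ++ [linv x] := by
      rw [List.getLast?_eq_some_iff] at h
      exact h
    have hL' : IsReduced L' := List.IsChain.left_of_append hL
    have hstep : Red.Step (L' ++ [linv x] ++ [x]) L' := by
      obtain ⟨a, b⟩ := x
      have := @Red.Step.not _ L' [] a (!b)
      simpa [linv] using this
    rw [reduce.Step.eq hstep, hL'.reduce_eq]
    simp
  · apply IsReduced.reduce_eq
    refine List.IsChain.append hL (List.isChain_singleton x) ?_
    intro y hy z hz
    simp only [List.head?_cons, Option.mem_def, Option.some.injEq] at hz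
    subst hz
    have : y ≠ linv x := by
      rintro rfl
      exact h hy
    exact (ne_linv_iff y x).1 this

theorem toWord_mul_lg (g : FG) (x : Letter) : (g * lg x).toWord = tm g.toWord x := by
  rw [toWord_mul, toWord_lg, reduce_append_single isReduced_toWord]

/-- moving the shadow along an available letter does not change the label -/
theorem walk_head (hrev : Rev st) {x : Letter} {q q' : Q} (h : st x q = some q') (g : FG) :
    walk st ((lg x)⁻¹ * g).toWord q' = walk st g.toWord q := by
  rw [← lg_linv, toWord_mul, toWord_lg]
  have hred : IsReduced g.toWord := isReduced_toWord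
  generalize g.toWord = L at hred
  have hback : st (linv x) q' = some q := hrev x q q' h
  cases L with
  | nil =>
    simp only [List.append_nil, reduce_singleton]
    rw [walk_cons_some st hback]
  | cons y w =>
    by_cases hy : y = x
    · subst hy
      have hw : IsReduced w := List.IsChain.tail hred
      have hstep : Red.Step ([linv y] ++ y :: w) w := by
        obtain ⟨a, b⟩ := y
        have := @Red.Step.not _ [] w a (!b)
        simpa [linv] using this
      rw [reduce.Step.eq hstep, hw.reduce_eq, walk_cons_some st h]
    · have hr : IsReduced ([linv x] ++ y :: w) := by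
        refine List.IsChain.append (List.isChain_singleton _) hred ?_
        intro a ha b hb
        simp only [List.getLast?_singleton, Option.mem_def, Option.some.injEq] at ha
        simp only [List.head?_cons, Option.mem_def, Option.some.injEq] at hb
        subst ha hb
        apply (ne_linv_iff _ _).1
        intro hc
        apply hy
        have := congrArg linv hc
        rw [linv_linv, linv_linv] at this
        exact this.symm
      rw [hr.reduce_eq]
      simp only [List.singleton_append]
      rw [walk_cons_some st hback]

/-- moving the observer changes the label by `beta` -/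
theorem walk_tail (hrev : Rev st) (x : Letter) (g : FG) (q : Q) :
    walk st (g * lg x).toWord q = beta st x (walk st g.toWord q) := by
  rw [toWord_mul_lg, walk_tm st hrev]

theorem tm_tm {r : List Letter} (hr : IsReduced r) (x : Letter) :
    tm (tm r x) (linv x) = r := by
  by_cases h : r.getLast? = some (linv x)
  · obtain ⟨L', rfl⟩ : ∃ L', r = L' ++ [linv x] := by
      rw [List.getLast?_eq_some_iff] at h
      exact h
    have h1 : tm (L' ++ [linv x]) x = L' := by simp [tm]
    rw [h1]
    have h2 : L'.getLast? ≠ some (linv (linv x)) := by
      intro hc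
      rw [linv_linv, List.getLast?_eq_some_iff] at hc
      obtain ⟨L'', rfl⟩ := hc
      have hr' : IsReduced (L'' ++ [x, linv x]) := by simpa using hr
      have : IsReduced [x, linv x] := List.IsChain.right_of_append hr'
      rw [FreeGroup.IsReduced, List.isChain_pair] at this
      have h3 := this rfl
      obtain ⟨a, b⟩ := x
      simp [linv] at h3
    simp [tm, h2]
  · have h1 : tm r x = r ++ [x] := by simp [tm, h]
    rw [h1]
    simp [tm, linv_linv]

theorem beta_inv (hrev : Rev st) (x : Letter) (p : Lab Q) (hp : Valid st p) :
    beta st (linv x) (beta st x p) = p := by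
  obtain ⟨r, q⟩ := p
  cases r with
  | nil =>
    cases h : st x q with
    | none =>
      rw [beta_nil_none st h, beta_cons]
      simp [tm, linv_linv]
    | some q' =>
      rw [beta_nil_some st h, beta_nil_some st (hrev x q q' h)]
  | cons y w =>
    rw [beta_cons]
    have hr : IsReduced (y :: w) := hp.1
    have hy : st y q = none := hp.2 y (by simp)
    cases htm : tm (y :: w) x with
    | nil =>
      have h1 := tm_tm hr x
      rw [htm, tm_nil] at h1
      have hyx : y = linv x := by
        have := congrArg List.head? h1
        simpa using this.symm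
      rw [beta_nil_none st (by rw [← hyx]; exact hy), h1]
    | cons a b =>
      rw [beta_cons, ← htm, tm_tm hr]

end generic

/-- The piece of a point. -/
def pc (q : Pt) : Option ℕ := q.map Sigma.fst

theorem step_rev : Rev step := by
  intro x q q' h
  obtain ⟨⟨i, c⟩, b⟩ := x
  cases q with
  | none => simp [step] at h
  | some s =>
    obtain ⟨m, z⟩ := s
    cases b with
    | true =>
      simp only [step] at h
      split_ifs at h with hc
      simp only [Option.some.injEq] at h
      subst h
      simp [linv, step, hc]
    | false =>
      simp only [step] at h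
      split_ifs at h with hc
      simp only [Option.some.injEq] at h
      subst h
      simp [linv, step, hc]

theorem step_pc {x : Letter} {q q' : Pt} (h : step x q = some q') : pc q' = pc q := by
  obtain ⟨⟨i, c⟩, b⟩ := x
  cases q with
  | none => simp [step] at h
  | some s =>
    obtain ⟨m, z⟩ := s
    cases b with
    | true =>
      simp only [step] at h
      split_ifs at h with hc
      simp only [Option.some.injEq] at h
      subst h
      simp [pc]
    | false =>
      simp only [step] at h
      split_ifs at h with hc
      simp only [Option.some.injEq] at h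
      subst h
      simp [pc]

theorem walk_pc (w : List Letter) (q : Pt) : pc (walk step w q).2 = pc q := by
  induction w generalizing q with
  | nil => rfl
  | cons x w ih =>
    cases h : step x q with
    | none => rw [walk_cons_none step h]
    | some q' => rw [walk_cons_some step h, ih, step_pc h]

theorem beta_pc (x : Letter) (p : Lab Pt) : pc (beta step x p).2 = pc p.2 := by
  obtain ⟨r, q⟩ := p
  cases r with
  | nil =>
    cases h : step x q with
    | none => rw [beta_nil_none step h]
    | some q' => rw [beta_nil_some step h]; exact step_pc h
  | cons y w => rw [beta_cons]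

section group

variable {H : Type} [Group H] (φ : FG →* H) (R : ℕ)

theorem wl_le_cap (k : H) : wl φ R k ≤ R + 1 := Nat.sInf_le (Or.inl rfl)

theorem wl_le_norm (g : FG) : wl φ R (φ g) ≤ g.norm := Nat.sInf_le (Or.inr ⟨g, rfl, rfl⟩)

theorem wl_one : wl φ R 1 = 0 := by
  have := wl_le_norm φ R 1
  simpa using this

theorem exists_of_wl_le {k : H} (h : wl φ R k ≤ R) : ∃ g : FG, g.norm = wl φ R k ∧ φ g = k := by
  have hne : {n | n = R + 1 ∨ ∃ g : FG, g.norm = n ∧ φ g = k}.Nonempty := ⟨R + 1, Or.inl rfl⟩
  have hmem := Nat.sInf_mem hne
  rcases hmem with h1 | h1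
  · exfalso
    have : wl φ R k = R + 1 := h1
    omega
  · exact h1

theorem wl_mul_left_le (x : Letter) (k : H) : wl φ R (φ (lg x) * k) ≤ wl φ R k + 1 := by
  by_cases h : wl φ R k ≤ R
  · obtain ⟨g, hg, rfl⟩ := exists_of_wl_le φ R h
    rw [← _root_.map_mul, ← hg]
    refine (wl_le_norm φ R _).trans ((FreeGroup.norm_mul_le _ _).trans ?_)
    rw [norm_lg]
    omega
  · have := wl_le_cap φ R (φ (lg x) * k)
    omega

theorem wl_mul_right_le (x : Letter) (k : H) : wl φ R (k * φ (lg x)) ≤ wl φ R k + 1 := by
  by_cases h : wl φ R k ≤ R
  · obtain ⟨g, hg, rfl⟩ := exists_of_wl_le φ R h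
    rw [← _root_.map_mul, ← hg]
    refine (wl_le_norm φ R _).trans ((FreeGroup.norm_mul_le _ _).trans ?_)
    rw [norm_lg]
  · have := wl_le_cap φ R (k * φ (lg x))
    omega

theorem le_wl_mul_left (x : Letter) (k : H) : wl φ R k ≤ wl φ R (φ (lg x) * k) + 1 := by
  have := wl_mul_left_le φ R (linv x) (φ (lg x) * k)
  rwa [lg_linv, _root_.map_inv, inv_mul_cancel_left] at this

theorem le_wl_mul_right (x : Letter) (k : H) : wl φ R k ≤ wl φ R (k * φ (lg x)) + 1 := by
  have := wl_mul_right_le φ R (linv x) (k * φ (lg x))
  rwa [lg_linv, _root_.map_inv, mul_inv_cancel_right] at this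

theorem norm_dec_le (k : H) : (dec φ R k).norm ≤ R := by
  unfold dec
  split_ifs with h
  · exact h.choose_spec.1
  · simp

variable (hg : ∀ g : FG, g ≠ 1 → g.norm ≤ 2 * R → φ g ≠ 1)

include hg in
theorem phi_inj_short {g g' : FG} (h : g.norm ≤ R) (h' : g'.norm ≤ R) (he : φ g' = φ g) :
    g' = g := by
  by_contra hne
  have h1 : g'⁻¹ * g ≠ 1 := by
    intro hc
    apply hne
    exact (inv_mul_eq_one.1 hc)
  refine hg _ h1 ?_ ?_
  · refine (FreeGroup.norm_mul_le _ _).trans ?_
    rw [norm_inv_eq]
    omega
  · rw [_root_.map_mul, _root_.map_inv, he, inv_mul_cancel]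

include hg in
theorem dec_phi (g : FG) (h : g.norm ≤ R) : dec φ R (φ g) = g := by
  have hex : ∃ g' : FG, g'.norm ≤ R ∧ φ g' = φ g := ⟨g, h, rfl⟩
  unfold dec
  rw [dif_pos hex]
  exact phi_inj_short φ R hg h hex.choose_spec.1 hex.choose_spec.2

include hg in
theorem wl_phi (g : FG) (h : g.norm ≤ R) : wl φ R (φ g) = g.norm := by
  have h1 := wl_le_norm φ R g
  obtain ⟨g', hg', he⟩ := exists_of_wl_le φ R (h1.trans h)
  have : g' = g := phi_inj_short φ R hg h (by omega) he
  rw [← hg', this]

end group

end Vale.Agent.P090
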