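import Mathlib

namespace Vale.Agent.P090

open Set

/-- The linear subspace of `M → ℝ` of Lipschitz functions vanishing at the base point `o`. -/
def lip0Submodule (M : Type) [MetricSpace M] (o : M) : Submodule ℝ (M → ℝ) where
  carrier := {f | f o = 0 ∧ ∃ K : ℝ, 0 ≤ K ∧ ∀ x y, |f x - f y| ≤ K * dist x y}
  add_mem' := by
    rintro f g ⟨hf0, K, hK, hf⟩ ⟨hg0, K', hK', hg⟩
    refine ⟨by simp [hf0, hg0], K + K', add_nonneg hK hK', fun x y => ?_⟩
    have h1 := hf x y
    have h2 := hg x y
    have : (f + g) x - (f + g) y = (f x - f y) + (g x - g y) := by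
      simp only [Pi.add_apply]; ring
    rw [this, add_mul]
    exact (abs_add_le _ _).trans (add_le_add h1 h2)
  zero_mem' := ⟨rfl, 0, le_refl _, fun x y => by simp⟩
  smul_mem' := by
    rintro c f ⟨hf0, K, hK, hf⟩
    refine ⟨by simp [hf0], |c| * K, mul_nonneg (abs_nonneg _) hK, fun x y => ?_⟩
    have : (c • f) x - (c • f) y = c * (f x - f y) := by
      simp only [Pi.smul_apply, smul_eq_mul]; ring
    rw [this, abs_mul, mul_assoc]
    exact mul_le_mul_of_nonneg_left (hf x y) (abs_nonneg _)

/-- `Lip0 M o`: the real vector space of Lipschitz functions `M → ℝ` vanishing at `o`. -/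
def Lip0 (M : Type) [MetricSpace M] (o : M) : Type := ↥(lip0Submodule M o)

variable {M : Type} [MetricSpace M] {o : M}

instance : AddCommGroup (Lip0 M o) := inferInstanceAs (AddCommGroup ↥(lip0Submodule M o))

instance : Module ℝ (Lip0 M o) := inferInstanceAs (Module ℝ ↥(lip0Submodule M o))

instance : CoeFun (Lip0 M o) (fun _ => M → ℝ) := ⟨fun f => f.1⟩

@[simp] theorem Lip0.add_apply (f g : Lip0 M o) (x : M) : (f + g) x = f x + g x := rfl
@[simp] theorem Lip0.sub_apply (f g : Lip0 M o) (x : M) : (f - g) x = f x - g x := rfl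
@[simp] theorem Lip0.neg_apply (f : Lip0 M o) (x : M) : (-f) x = -f x := rfl
@[simp] theorem Lip0.smul_apply (c : ℝ) (f : Lip0 M o) (x : M) : (c • f) x = c * f x := rfl
@[simp] theorem Lip0.zero_apply (x : M) : (0 : Lip0 M o) x = 0 := rfl
@[simp] theorem Lip0.map_base (f : Lip0 M o) : f o = 0 := f.2.1

theorem Lip0.ext {f g : Lip0 M o} (h : ∀ x, f x = g x) : f = g := Subtype.ext (funext h)

/-- The set of Lipschitz bounds of a function. -/
def lipBounds (f : M → ℝ) : Set ℝ := {K : ℝ | 0 ≤ K ∧ ∀ x y, |f x - f y| ≤ K * dist x y}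

/-- The Lipschitz constant (least Lipschitz bound) of a function. -/
noncomputable def lipConst (f : M → ℝ) : ℝ := sInf (lipBounds f)

theorem lipBounds_nonempty (f : Lip0 M o) : (lipBounds (f : M → ℝ)).Nonempty := by
  obtain ⟨_, K, hK, hf⟩ := f.2
  exact ⟨K, hK, hf⟩

theorem lipBounds_bddBelow (f : M → ℝ) : BddBelow (lipBounds f) := ⟨0, fun _ hK => hK.1⟩

theorem lipConst_nonneg (f : M → ℝ) : 0 ≤ lipConst f :=
  Real.sInf_nonneg (fun _ hK => hK.1)

theorem lipConst_le {f : M → ℝ} {K : ℝ} (hK : 0 ≤ K) (h : ∀ x y, |f x - f y| ≤ K * dist x y) :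
    lipConst f ≤ K :=
  csInf_le (lipBounds_bddBelow f) ⟨hK, h⟩

theorem abs_sub_le_lipConst (f : Lip0 M o) (x y : M) :
    |f x - f y| ≤ lipConst (f : M → ℝ) * dist x y := by
  rcases eq_or_lt_of_le (dist_nonneg (x := x) (y := y)) with hd | hd
  · obtain ⟨K, _, hf⟩ := lipBounds_nonempty f
    have := hf x y
    rw [← hd] at this ⊢
    simpa using this
  · rw [← div_le_iff₀ hd]
    refine le_csInf (lipBounds_nonempty f) (fun K hK => ?_)
    rw [div_le_iff₀ hd]
    exact hK.2 x y

/-- The Lipschitz constant is a norm on `Lip0 M o`. -/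
noncomputable def lipNorm (M : Type) [MetricSpace M] (o : M) : AddGroupNorm (Lip0 M o) where
  toFun f := lipConst (f : M → ℝ)
  map_zero' := by
    apply le_antisymm _ (lipConst_nonneg _)
    exact lipConst_le (le_refl _) (fun x y => by simp)
  add_le' f g := by
    refine lipConst_le (add_nonneg (lipConst_nonneg _) (lipConst_nonneg _)) (fun x y => ?_)
    have h1 := abs_sub_le_lipConst f x y
    have h2 := abs_sub_le_lipConst g x y
    have : (f + g) x - (f + g) y = (f x - f y) + (g x - g y) := by
      simp only [Lip0.add_apply]; ring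
    rw [this, add_mul]
    exact (abs_add_le _ _).trans (add_le_add h1 h2)
  neg' f := by
    have key : ∀ g : Lip0 M o, lipConst ((-g : Lip0 M o) : M → ℝ) ≤ lipConst (g : M → ℝ) := by
      intro g
      refine lipConst_le (lipConst_nonneg _) (fun x y => ?_)
      have h1 := abs_sub_le_lipConst g x y
      have : (-g) x - (-g) y = -(g x - g y) := by
        simp only [Lip0.neg_apply]; ring
      rw [this, abs_neg]
      exact h1
    apply le_antisymm (key f)
    have := key (-f)
    rwa [neg_neg] at this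
  eq_zero_of_map_eq_zero' f hf := by
    apply Lip0.ext
    intro x
    have h1 := abs_sub_le_lipConst f x o
    rw [hf, zero_mul, Lip0.map_base, sub_zero] at h1
    simpa using abs_nonpos_iff.mp h1

noncomputable instance : NormedAddCommGroup (Lip0 M o) :=
  (lipNorm M o).toNormedAddCommGroup

theorem norm_def (f : Lip0 M o) : ‖f‖ = lipConst (f : M → ℝ) := rfl

noncomputable instance : NormedSpace ℝ (Lip0 M o) where
  norm_smul_le c f := by
    rw [norm_def, norm_def]
    refine lipConst_le (mul_nonneg (norm_nonneg _) (lipConst_nonneg _)) (fun x y => ?_)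
    have h1 := abs_sub_le_lipConst f x y
    have : (c • f) x - (c • f) y = c * (f x - f y) := by
      simp only [Lip0.smul_apply]; ring
    rw [this, abs_mul, mul_assoc, Real.norm_eq_abs]
    exact mul_le_mul_of_nonneg_left h1 (abs_nonneg _)

/-- Evaluation at `x` as a linear functional on `Lip0 M o`. -/
def evalLin (o : M) (x : M) : Lip0 M o →ₗ[ℝ] ℝ where
  toFun f := f x
  map_add' f g := by simp
  map_smul' c f := by simp

/-- The evaluation functional `δ_x ∈ Lip0(M)^*`. -/
noncomputable def delta (o : M) (x : M) : StrongDual ℝ (Lip0 M o) :=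
  LinearMap.mkContinuous (evalLin o x) (dist x o)
    (fun f => by
      have h1 := abs_sub_le_lipConst f x o
      rw [Lip0.map_base, sub_zero] at h1
      rw [norm_def, Real.norm_eq_abs, mul_comm]
      exact h1)

@[simp] theorem delta_apply (x : M) (f : Lip0 M o) : delta o x f = f x := rfl

/-- The Lipschitz-free space `F(M)`: closed linear span of the evaluations in `Lip0(M)^*`. -/
noncomputable def LipFree (M : Type) [MetricSpace M] (o : M) :
    Submodule ℝ (StrongDual ℝ (Lip0 M o)) :=
  (Submodule.span ℝ (Set.range (delta o))).topologicalClosure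

/-- The `lam`-bounded approximation property of a real normed space. -/
def HasBAP (lam : ℝ) (X : Type) [NormedAddCommGroup X] [NormedSpace ℝ X] : Prop :=
  ∀ C : Set X, IsCompact C → ∀ ε : ℝ, 0 < ε →
    ∃ T : X →L[ℝ] X, FiniteDimensional ℝ (LinearMap.range T.toLinearMap) ∧ ‖T‖ ≤ lam ∧
      ∀ u ∈ C, ‖T u - u‖ < ε

end Vale.Agent.P090
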