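import Mathlib

namespace Vale.Agent.P090

open Finset

theorem sum_comp_le {α : Type} [DecidableEq α] (w : α → ℝ) (hw : ∀ k, 0 ≤ w k) (ρ : α → α)
    (hρ : Function.Injective ρ) (W P : Finset α) (h : ∀ k ∈ W, ρ k ∈ P) :
    ∑ k ∈ W, w (ρ k) ≤ ∑ k ∈ P, w k := by
  rw [← Finset.sum_image (f := w) (g := ρ) (fun a _ b _ hab => hρ hab)]
  apply Finset.sum_le_sum_of_subset_of_nonneg
  · intro k hk
    obtain ⟨a, ha, rfl⟩ := Finset.mem_image.mp hk
    exact h a ha
  · intro k _ _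
    exact hw k

variable {N : ℕ} [NeZero N]

theorem vma_add (a b : ZMod N) (ha : 4 * |a.valMinAbs| < N) (hb : 4 * |b.valMinAbs| < N) :
    (a + b).valMinAbs = a.valMinAbs + b.valMinAbs := by
  rw [ZMod.valMinAbs_spec]
  refine ⟨by push_cast; simp, ?_, ?_⟩
  · have h1 := neg_abs_le a.valMinAbs
    have h2 := neg_abs_le b.valMinAbs
    linarith
  · have h1 := le_abs_self a.valMinAbs
    have h2 := le_abs_self b.valMinAbs
    linarith

theorem vma_sub (a b : ZMod N) (ha : 4 * |a.valMinAbs| < N) (hb : 4 * |b.valMinAbs| < N) :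
    (a - b).valMinAbs = a.valMinAbs - b.valMinAbs := by
  rw [ZMod.valMinAbs_spec]
  refine ⟨by push_cast; simp, ?_, ?_⟩
  · have h1 := neg_abs_le a.valMinAbs
    have h2 := le_abs_self b.valMinAbs
    linarith
  · have h1 := le_abs_self a.valMinAbs
    have h2 := neg_abs_le b.valMinAbs
    linarith

/-- first pair of opposite quadrants -/
def Q1 (k : ZMod N × ZMod N) : Prop :=
  (0 < k.1.valMinAbs ∧ 0 ≤ k.2.valMinAbs) ∨ (k.1.valMinAbs < 0 ∧ k.2.valMinAbs ≤ 0)

/-- second pair of opposite quadrants -/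
def Q2 (k : ZMod N × ZMod N) : Prop :=
  (k.1.valMinAbs ≤ 0 ∧ 0 < k.2.valMinAbs) ∨ (0 ≤ k.1.valMinAbs ∧ k.2.valMinAbs < 0)

/-- the box of small frequencies -/
def Bx (k : ZMod N × ZMod N) : Prop :=
  4 * |k.1.valMinAbs| < (N : ℤ) ∧ 4 * |k.2.valMinAbs| < (N : ℤ)

instance (k : ZMod N × ZMod N) : Decidable (Q1 k) := by unfold Q1; infer_instance
instance (k : ZMod N × ZMod N) : Decidable (Q2 k) := by unfold Q2; infer_instance
instance (k : ZMod N × ZMod N) : Decidable (Bx k) := by unfold Bx; infer_instance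

theorem half_bound (w : ZMod N × ZMod N → ℝ) (hw : ∀ k, 0 ≤ w k) (Ea Eb : ℝ)
    (Q : ZMod N × ZMod N → Prop) [DecidablePred Q] (D : ZMod N × ZMod N → Prop) [DecidablePred D]
    (ρ1 ρ2 : ZMod N × ZMod N → ZMod N × ZMod N)
    (i1 : Function.Injective ρ1) (i2 : Function.Injective ρ2)
    (m1 : ∀ k, Q k → Bx k → Q (ρ1 k) ∧ D (ρ1 k)) (m2 : ∀ k, Q k → Bx k → Q (ρ2 k) ∧ ¬ D (ρ2 k))
    (g1 : ∀ A : Finset (ZMod N × ZMod N), 3 / 4 * ∑ k ∈ A, w k - 3 * Ea ≤ ∑ k ∈ A, w (ρ1 k))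
    (g2 : ∀ A : Finset (ZMod N × ZMod N), 3 / 4 * ∑ k ∈ A, w k - 3 * Eb ≤ ∑ k ∈ A, w (ρ2 k)) :
    ∑ k ∈ univ.filter Q, w k ≤ 3 * ∑ k ∈ univ.filter (fun k => Q k ∧ ¬ Bx k), w k
      + 6 * (Ea + Eb) := by
  set W := univ.filter (fun k => Q k ∧ Bx k) with hW
  have s1 : ∑ k ∈ W, w (ρ1 k) ≤ ∑ k ∈ (univ.filter Q).filter D, w k := by
    apply sum_comp_le w hw ρ1 i1
    intro k hk
    have hk' := (Finset.mem_filter.mp hk).2
    have := m1 k hk'.1 hk'.2
    simp [this.1, this.2]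
  have s2 : ∑ k ∈ W, w (ρ2 k) ≤ ∑ k ∈ (univ.filter Q).filter (fun k => ¬ D k), w k := by
    apply sum_comp_le w hw ρ2 i2
    intro k hk
    have hk' := (Finset.mem_filter.mp hk).2
    have := m2 k hk'.1 hk'.2
    simp [this.1, this.2]
  have s3 := Finset.sum_filter_add_sum_filter_not (univ.filter Q) D w
  have s4 := Finset.sum_filter_add_sum_filter_not (univ.filter Q) Bx w
  rw [Finset.filter_filter, Finset.filter_filter] at s4
  have t1 := g1 W
  have t2 := g2 W
  linarith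

theorem pingpong (w : ZMod N × ZMod N → ℝ) (hw : ∀ k, 0 ≤ w k) (E1 E2 E3 E4 : ℝ)
    (h1 : 2 * ∑ k ∈ univ.filter (fun k : ZMod N × ZMod N => (N : ℤ) ≤ 4 * |k.1.valMinAbs|), w k ≤ E1)
    (h2 : 2 * ∑ k ∈ univ.filter (fun k : ZMod N × ZMod N => (N : ℤ) ≤ 4 * |k.2.valMinAbs|), w k ≤ E2)
    (h3a : ∀ A : Finset (ZMod N × ZMod N),
      3 / 4 * ∑ k ∈ A, w k - 3 * E3 ≤ ∑ k ∈ A, w (k.1, k.2 - k.1))
    (h3b : ∀ A : Finset (ZMod N × ZMod N),
      3 / 4 * ∑ k ∈ A, w k - 3 * E3 ≤ ∑ k ∈ A, w (k.1, k.2 + k.1))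
    (h4a : ∀ A : Finset (ZMod N × ZMod N),
      3 / 4 * ∑ k ∈ A, w k - 3 * E4 ≤ ∑ k ∈ A, w (k.1 - k.2, k.2))
    (h4b : ∀ A : Finset (ZMod N × ZMod N),
      3 / 4 * ∑ k ∈ A, w k - 3 * E4 ≤ ∑ k ∈ A, w (k.1 + k.2, k.2)) :
    ∑ k, w k - w 0 ≤ 3 / 2 * (E1 + E2) + 12 * (E3 + E4) := by
  have b1 := half_bound w hw E4 E3 Q1 (fun k => |k.2.valMinAbs| < |k.1.valMinAbs|)
    (fun k => (k.1 + k.2, k.2)) (fun k => (k.1, k.2 + k.1))
    (by
      intro a b hab
      simp only [Prod.mk.injEq] at hab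
      obtain ⟨e1, e2⟩ := hab
      rw [e2] at e1
      exact Prod.ext (add_right_cancel e1) e2)
    (by
      intro a b hab
      simp only [Prod.mk.injEq] at hab
      obtain ⟨e1, e2⟩ := hab
      rw [e1] at e2
      exact Prod.ext e1 (add_right_cancel e2))
    (by
      intro k hQ hB
      unfold Q1 at hQ ⊢
      simp only [vma_add k.1 k.2 hB.1 hB.2]
      rcases hQ with ⟨hx, hy⟩ | ⟨hx, hy⟩
      · refine ⟨Or.inl ⟨by linarith, hy⟩, ?_⟩
        rw [abs_of_nonneg hy, abs_of_pos (by linarith)]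
        linarith
      · refine ⟨Or.inr ⟨by linarith, hy⟩, ?_⟩
        rw [abs_of_nonpos hy, abs_of_neg (by linarith)]
        linarith)
    (by
      intro k hQ hB
      unfold Q1 at hQ ⊢
      simp only [vma_add k.2 k.1 hB.2 hB.1]
      rcases hQ with ⟨hx, hy⟩ | ⟨hx, hy⟩
      · refine ⟨Or.inl ⟨hx, by linarith⟩, ?_⟩
        rw [abs_of_pos hx, abs_of_nonneg (by linarith)]
        linarith
      · refine ⟨Or.inr ⟨hx, by linarith⟩, ?_⟩
        rw [abs_of_neg hx, abs_of_nonpos (by linarith)]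
        linarith)
    h4b h3b
  have b2 := half_bound w hw E3 E4 Q2 (fun k => |k.1.valMinAbs| < |k.2.valMinAbs|)
    (fun k => (k.1, k.2 - k.1)) (fun k => (k.1 - k.2, k.2))
    (by
      intro a b hab
      simp only [Prod.mk.injEq] at hab
      obtain ⟨e1, e2⟩ := hab
      rw [e1] at e2
      exact Prod.ext e1 (sub_left_injective e2))
    (by
      intro a b hab
      simp only [Prod.mk.injEq] at hab
      obtain ⟨e1, e2⟩ := hab
      rw [e2] at e1
      exact Prod.ext (sub_left_injective e1) e2)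
    (by
      intro k hQ hB
      unfold Q2 at hQ ⊢
      simp only [vma_sub k.2 k.1 hB.2 hB.1]
      rcases hQ with ⟨hx, hy⟩ | ⟨hx, hy⟩
      · refine ⟨Or.inl ⟨hx, by linarith⟩, ?_⟩
        rw [abs_of_nonpos hx, abs_of_pos (by linarith)]
        linarith
      · refine ⟨Or.inr ⟨hx, by linarith⟩, ?_⟩
        rw [abs_of_nonneg hx, abs_of_neg (by linarith)]
        linarith)
    (by
      intro k hQ hB
      unfold Q2 at hQ ⊢
      simp only [vma_sub k.1 k.2 hB.1 hB.2]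
      rcases hQ with ⟨hx, hy⟩ | ⟨hx, hy⟩
      · refine ⟨Or.inl ⟨by linarith, hy⟩, ?_⟩
        rw [abs_of_pos hy, abs_of_neg (by linarith)]
        linarith
      · refine ⟨Or.inr ⟨by linarith, hy⟩, ?_⟩
        rw [abs_of_neg hy, abs_of_pos (by linarith)]
        linarith)
    h3a h4a
  -- partition of the nonzero frequencies
  have p1 : ∑ k, w k - w 0 ≤ ∑ k ∈ univ.filter (Q1 (N := N)), w k + ∑ k ∈ univ.filter (Q2 (N := N)), w k := by
    have hsplit : ∑ k, w k = w 0 + ∑ k ∈ univ.erase (0 : ZMod N × ZMod N), w k := by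
      rw [Finset.add_sum_erase _ _ (Finset.mem_univ _)]
    rw [hsplit, add_sub_cancel_left, ← Finset.sum_union]
    · apply Finset.sum_le_sum_of_subset_of_nonneg
      · intro k hk
        have hk0 : k ≠ 0 := (Finset.mem_erase.mp hk).1
        have hne : ¬ (k.1.valMinAbs = 0 ∧ k.2.valMinAbs = 0) := by
          rintro ⟨e1, e2⟩
          apply hk0
          exact Prod.ext ((ZMod.valMinAbs_eq_zero _).mp e1) ((ZMod.valMinAbs_eq_zero _).mp e2)
        simp only [Finset.mem_union, Finset.mem_filter, Finset.mem_univ, true_and]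
        unfold Q1 Q2
        omega
      · intro k _ _
        exact hw k
    · rw [Finset.disjoint_filter]
      intro k _ hq1 hq2
      unfold Q1 at hq1
      unfold Q2 at hq2
      omega
  -- outside of the box
  have p2 : ∑ k ∈ univ.filter (fun k => Q1 (N := N) k ∧ ¬ Bx k), w k
      + ∑ k ∈ univ.filter (fun k => Q2 (N := N) k ∧ ¬ Bx k), w k
      ≤ ∑ k ∈ univ.filter (fun k : ZMod N × ZMod N => (N : ℤ) ≤ 4 * |k.1.valMinAbs|), w k
        + ∑ k ∈ univ.filter (fun k : ZMod N × ZMod N => (N : ℤ) ≤ 4 * |k.2.valMinAbs|), w k := by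
    rw [← Finset.sum_union]
    · refine le_trans ?_ (Finset.sum_union_inter (f := w)
        (s₁ := univ.filter (fun k : ZMod N × ZMod N => (N : ℤ) ≤ 4 * |k.1.valMinAbs|))
        (s₂ := univ.filter (fun k : ZMod N × ZMod N => (N : ℤ) ≤ 4 * |k.2.valMinAbs|))).le
      refine le_trans ?_ (le_add_of_nonneg_right (Finset.sum_nonneg (fun k _ => hw k)))
      apply Finset.sum_le_sum_of_subset_of_nonneg
      · intro k hk
        simp only [Finset.mem_union, Finset.mem_filter, Finset.mem_univ, true_and] at hk ⊢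
        have hB : ¬ Bx k := by
          rcases hk with hk | hk <;> exact hk.2
        unfold Bx at hB
        by_contra hcon
        rw [not_or, not_le, not_le] at hcon
        exact hB ⟨hcon.1, hcon.2⟩
      · intro k _ _
        exact hw k
    · rw [Finset.disjoint_filter]
      intro k _ hq1 hq2
      have a1 := hq1.1
      have a2 := hq2.1
      unfold Q1 at a1
      unfold Q2 at a2
      omega
  linarith

end Vale.Agent.P090
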