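import Vale.Agent.P090.Fourier
import Vale.Agent.P090.PingPong

namespace Vale.Agent.P090

open Finset

theorem norm_sq_ineq (a b : ℂ) : 3 / 4 * ‖b‖ ^ 2 ≤ ‖a‖ ^ 2 + 3 * ‖a - b‖ ^ 2 := by
  have hb : ‖b‖ ≤ ‖a‖ + ‖a - b‖ := by
    have := norm_sub_le a (a - b)
    simpa using this
  have h0 := norm_nonneg b
  have h1 := norm_nonneg a
  have h2 := norm_nonneg (a - b)
  have h3 : ‖b‖ ^ 2 ≤ (‖a‖ + ‖a - b‖) ^ 2 := by
    apply pow_le_pow_left₀ h0 hb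
  nlinarith [sq_nonneg (‖a‖ - 3 * ‖a - b‖)]

/-- Spectral gap (Margulis, Gabber-Galil, Burger) for the affine action on `(ZMod N)^2`. -/
theorem gap (N : ℕ) [NeZero N] (f : ZMod N × ZMod N → ℝ) :
    (N : ℝ) ^ 2 * ∑ x, f x ^ 2 - (∑ x, f x) ^ 2 ≤
      12 * (N : ℝ) ^ 2 *
        (∑ x : ZMod N × ZMod N, (f (x.1 + 1, x.2) - f x) ^ 2
          + ∑ x : ZMod N × ZMod N, (f (x.1, x.2 + 1) - f x) ^ 2
          + ∑ x : ZMod N × ZMod N, (f (x.1 + x.2, x.2) - f x) ^ 2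
          + ∑ x : ZMod N × ZMod N, (f (x.1, x.2 + x.1) - f x) ^ 2) := by
  set w : ZMod N × ZMod N → ℝ := fun k => ‖ft N f k‖ ^ 2 with hw
  have hwnn : ∀ k, 0 ≤ w k := fun k => sq_nonneg _
  set g1 : ZMod N × ZMod N → ℝ := fun x => f (x.1 + 1, x.2) - f x with hg1
  set g2 : ZMod N × ZMod N → ℝ := fun x => f (x.1, x.2 + 1) - f x with hg2
  set g3 : ZMod N × ZMod N → ℝ := fun x => f (x.1 + x.2, x.2) - f x with hg3
  set g4 : ZMod N × ZMod N → ℝ := fun x => f (x.1, x.2 + x.1) - f x with hg4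
  have P1 := plancherel N g1
  have P2 := plancherel N g2
  have P3 := plancherel N g3
  have P4 := plancherel N g4
  have F1 : ∀ k, ft N g1 k = (ZMod.stdAddChar k.1 - 1) * ft N f k := by
    intro k
    rw [hg1, ft_sub N (fun x => f (x.1 + 1, x.2)) f, ft_shift1]
    ring
  have F2 : ∀ k, ft N g2 k = (ZMod.stdAddChar k.2 - 1) * ft N f k := by
    intro k
    rw [hg2, ft_sub N (fun x => f (x.1, x.2 + 1)) f, ft_shift2]
    ring
  have F3 : ∀ k, ft N g3 k = ft N f (k.1, k.2 - k.1) - ft N f k := by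
    intro k
    rw [hg3, ft_sub N (fun x => f (x.1 + x.2, x.2)) f, ft_shear1]
  have F4 : ∀ k, ft N g4 k = ft N f (k.1 - k.2, k.2) - ft N f k := by
    intro k
    rw [hg4, ft_sub N (fun x => f (x.1, x.2 + x.1)) f, ft_shear2]
  have h1 : 2 * ∑ k ∈ univ.filter (fun k : ZMod N × ZMod N => (N : ℤ) ≤ 4 * |k.1.valMinAbs|), w k
      ≤ (N : ℝ) ^ 2 * ∑ x, g1 x ^ 2 := by
    rw [← P1, Finset.mul_sum]
    refine le_trans ?_ (Finset.sum_le_sum_of_subset_of_nonneg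
      (Finset.filter_subset (fun k : ZMod N × ZMod N => (N : ℤ) ≤ 4 * |k.1.valMinAbs|) univ)
      (fun k _ _ => sq_nonneg _))
    apply Finset.sum_le_sum
    intro k hk
    rw [F1, norm_mul, mul_pow]
    exact mul_le_mul_of_nonneg_right (char_far N k.1 (Finset.mem_filter.mp hk).2) (hwnn k)
  have h2 : 2 * ∑ k ∈ univ.filter (fun k : ZMod N × ZMod N => (N : ℤ) ≤ 4 * |k.2.valMinAbs|), w k
      ≤ (N : ℝ) ^ 2 * ∑ x, g2 x ^ 2 := by
    rw [← P2, Finset.mul_sum]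
    refine le_trans ?_ (Finset.sum_le_sum_of_subset_of_nonneg
      (Finset.filter_subset (fun k : ZMod N × ZMod N => (N : ℤ) ≤ 4 * |k.2.valMinAbs|) univ)
      (fun k _ _ => sq_nonneg _))
    apply Finset.sum_le_sum
    intro k hk
    rw [F2, norm_mul, mul_pow]
    exact mul_le_mul_of_nonneg_right (char_far N k.2 (Finset.mem_filter.mp hk).2) (hwnn k)
  have sub_le : ∀ (g : ZMod N × ZMod N → ℝ) (A : Finset (ZMod N × ZMod N)),
      ∑ k ∈ A, ‖ft N g k‖ ^ 2 ≤ ∑ k, ‖ft N g k‖ ^ 2 := fun g A =>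
    Finset.sum_le_sum_of_subset_of_nonneg (Finset.subset_univ _) (fun k _ _ => sq_nonneg _)
  have h3a : ∀ A : Finset (ZMod N × ZMod N),
      3 / 4 * ∑ k ∈ A, w k - 3 * ((N : ℝ) ^ 2 * ∑ x, g3 x ^ 2) ≤ ∑ k ∈ A, w (k.1, k.2 - k.1) := by
    intro A
    have hs : 3 / 4 * ∑ k ∈ A, w k ≤ ∑ k ∈ A, w (k.1, k.2 - k.1) + 3 * ∑ k ∈ A, ‖ft N g3 k‖ ^ 2 := by
      rw [Finset.mul_sum, Finset.mul_sum, ← Finset.sum_add_distrib]
      apply Finset.sum_le_sum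
      intro k _
      rw [F3]
      exact norm_sq_ineq _ _
    have := sub_le g3 A
    rw [← P3]
    linarith
  have h4a : ∀ A : Finset (ZMod N × ZMod N),
      3 / 4 * ∑ k ∈ A, w k - 3 * ((N : ℝ) ^ 2 * ∑ x, g4 x ^ 2) ≤ ∑ k ∈ A, w (k.1 - k.2, k.2) := by
    intro A
    have hs : 3 / 4 * ∑ k ∈ A, w k ≤ ∑ k ∈ A, w (k.1 - k.2, k.2) + 3 * ∑ k ∈ A, ‖ft N g4 k‖ ^ 2 := by
      rw [Finset.mul_sum, Finset.mul_sum, ← Finset.sum_add_distrib]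
      apply Finset.sum_le_sum
      intro k _
      rw [F4]
      exact norm_sq_ineq _ _
    have := sub_le g4 A
    rw [← P4]
    linarith
  have h3b : ∀ A : Finset (ZMod N × ZMod N),
      3 / 4 * ∑ k ∈ A, w k - 3 * ((N : ℝ) ^ 2 * ∑ x, g3 x ^ 2) ≤ ∑ k ∈ A, w (k.1, k.2 + k.1) := by
    intro A
    have hs : 3 / 4 * ∑ k ∈ A, w k
        ≤ ∑ k ∈ A, w (k.1, k.2 + k.1) + 3 * ∑ k ∈ A, ‖ft N g3 (k.1, k.2 + k.1)‖ ^ 2 := by
      rw [Finset.mul_sum, Finset.mul_sum, ← Finset.sum_add_distrib]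
      apply Finset.sum_le_sum
      intro k _
      rw [F3]
      simp only [add_sub_cancel_right]
      rw [← norm_neg (ft N f k - ft N f (k.1, k.2 + k.1)), neg_sub]
      exact norm_sq_ineq _ _
    have := sum_comp_le (fun k => ‖ft N g3 k‖ ^ 2) (fun k => sq_nonneg _)
      (fun k : ZMod N × ZMod N => (k.1, k.2 + k.1)) (by
        intro a b hab
        simp only [Prod.mk.injEq] at hab
        obtain ⟨e1, e2⟩ := hab
        rw [e1] at e2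
        exact Prod.ext e1 (add_right_cancel e2)) A univ (fun k _ => Finset.mem_univ _)
    rw [← P3]
    linarith
  have h4b : ∀ A : Finset (ZMod N × ZMod N),
      3 / 4 * ∑ k ∈ A, w k - 3 * ((N : ℝ) ^ 2 * ∑ x, g4 x ^ 2) ≤ ∑ k ∈ A, w (k.1 + k.2, k.2) := by
    intro A
    have hs : 3 / 4 * ∑ k ∈ A, w k
        ≤ ∑ k ∈ A, w (k.1 + k.2, k.2) + 3 * ∑ k ∈ A, ‖ft N g4 (k.1 + k.2, k.2)‖ ^ 2 := by
      rw [Finset.mul_sum, Finset.mul_sum, ← Finset.sum_add_distrib]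
      apply Finset.sum_le_sum
      intro k _
      rw [F4]
      simp only [add_sub_cancel_right]
      rw [← norm_neg (ft N f k - ft N f (k.1 + k.2, k.2)), neg_sub]
      exact norm_sq_ineq _ _
    have := sum_comp_le (fun k => ‖ft N g4 k‖ ^ 2) (fun k => sq_nonneg _)
      (fun k : ZMod N × ZMod N => (k.1 + k.2, k.2)) (by
        intro a b hab
        simp only [Prod.mk.injEq] at hab
        obtain ⟨e1, e2⟩ := hab
        rw [e2] at e1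
        exact Prod.ext (add_right_cancel e1) e2) A univ (fun k _ => Finset.mem_univ _)
    rw [← P4]
    linarith
  have hpp := pingpong w hwnn _ _ _ _ h1 h2 h3a h3b h4a h4b
  have hP := plancherel N f
  have h0 := ft_zero N f
  have hNN : (0 : ℝ) ≤ (N : ℝ) ^ 2 := sq_nonneg _
  have n1 : 0 ≤ (N : ℝ) ^ 2 * ∑ x, g1 x ^ 2 :=
    mul_nonneg hNN (Finset.sum_nonneg (fun _ _ => sq_nonneg _))
  have n2 : 0 ≤ (N : ℝ) ^ 2 * ∑ x, g2 x ^ 2 :=
    mul_nonneg hNN (Finset.sum_nonneg (fun _ _ => sq_nonneg _))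
  have e1 : ∑ k, w k = (N : ℝ) ^ 2 * ∑ x, f x ^ 2 := hP
  have e2 : w 0 = (∑ x, f x) ^ 2 := h0
  rw [e1, e2] at hpp
  have fin : 12 * (N : ℝ) ^ 2 * (∑ x, g1 x ^ 2 + ∑ x, g2 x ^ 2 + ∑ x, g3 x ^ 2 + ∑ x, g4 x ^ 2)
      = 12 * ((N : ℝ) ^ 2 * ∑ x, g1 x ^ 2) + 12 * ((N : ℝ) ^ 2 * ∑ x, g2 x ^ 2)
        + 12 * ((N : ℝ) ^ 2 * ∑ x, g3 x ^ 2) + 12 * ((N : ℝ) ^ 2 * ∑ x, g4 x ^ 2) := by ring
  change _ ≤ 12 * (N : ℝ) ^ 2 * (∑ x, g1 x ^ 2 + ∑ x, g2 x ^ 2 + ∑ x, g3 x ^ 2 + ∑ x, g4 x ^ 2)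
  rw [fin]
  linarith

end Vale.Agent.P090
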