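import Vale.Agent.P090.Kernel
import Vale.Agent.P090.Gap

namespace Vale.Agent.P090

open Finset

/-- The four affine generators acting on `(ZMod N)^2`. -/
def aff (N : ℕ) : Fin 4 → Equiv.Perm (ZMod N × ZMod N)
  | 0 => ⟨fun x => (x.1 + 1, x.2), fun x => (x.1 - 1, x.2), fun x => by simp, fun x => by simp⟩
  | 1 => ⟨fun x => (x.1, x.2 + 1), fun x => (x.1, x.2 - 1), fun x => by simp, fun x => by simp⟩
  | 2 => ⟨fun x => (x.1 + x.2, x.2), fun x => (x.1 - x.2, x.2), fun x => by simp, fun x => by simp⟩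
  | 3 => ⟨fun x => (x.1, x.2 + x.1), fun x => (x.1, x.2 - x.1), fun x => by simp, fun x => by simp⟩

/-- The colouring: a point is red when the residue of its first coordinate is `< N / 2`. -/
def redZ (N : ℕ) (x : ZMod N × ZMod N) : Prop := x.1.val * 2 < N

instance (N : ℕ) (x : ZMod N × ZMod N) : Decidable (redZ N x) :=
  inferInstanceAs (Decidable (x.1.val * 2 < N))

theorem card_val_lt (N : ℕ) [NeZero N] (t : ℕ) (ht : t ≤ N) :
    (Finset.univ.filter (fun a : ZMod N => a.val < t)).card = t := by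
  have h : (Finset.univ.filter (fun a : ZMod N => a.val < t)).image ZMod.val = Finset.range t := by
    ext v
    simp only [Finset.mem_image, Finset.mem_filter, Finset.mem_univ, true_and, Finset.mem_range]
    constructor
    · rintro ⟨a, ha, rfl⟩
      exact ha
    · intro hv
      refine ⟨(v : ZMod N), ?_, ?_⟩
      · rw [ZMod.val_natCast_of_lt (lt_of_lt_of_le hv ht)]; exact hv
      · exact ZMod.val_natCast_of_lt (lt_of_lt_of_le hv ht)
  have h2 := Finset.card_image_of_injective (Finset.univ.filter (fun a : ZMod N => a.val < t))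
    (ZMod.val_injective N)
  rw [h, Finset.card_range] at h2
  exact h2.symm

theorem cs_support {α : Type} [Fintype α] [DecidableEq α] (φ : α → ℝ) (Ex : Finset α)
    (h : ∀ p ∈ Ex, φ p = 0) :
    (∑ p, φ p) ^ 2 ≤ ((Fintype.card α : ℝ) - Ex.card) * ∑ p, φ p ^ 2 := by
  have h1 : ∑ p, φ p = ∑ p ∈ Exᶜ, φ p := by
    rw [← Finset.sum_add_sum_compl Ex φ, Finset.sum_eq_zero h, zero_add]
  have h2 : ∑ p, φ p ^ 2 = ∑ p ∈ Exᶜ, φ p ^ 2 := by
    rw [← Finset.sum_add_sum_compl Ex (fun p => φ p ^ 2),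
      Finset.sum_eq_zero (fun p hp => by rw [h p hp]; ring), zero_add]
  have h3 : ((Exᶜ).card : ℝ) = (Fintype.card α : ℝ) - Ex.card := by
    rw [Finset.card_compl, Nat.cast_sub (Finset.card_le_univ _)]
  rw [h1, h2, ← h3]
  exact sq_sum_le_card_mul_sum_sq

theorem card_red (N : ℕ) [NeZero N] :
    (Finset.univ.filter (fun x : ZMod N × ZMod N => redZ N x)).card = ((N + 1) / 2) * N := by
  have h : (Finset.univ.filter (fun x : ZMod N × ZMod N => redZ N x))
      = (Finset.univ.filter (fun a : ZMod N => a.val < (N + 1) / 2)) ×ˢ Finset.univ := by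
    ext x
    simp only [Finset.mem_filter, Finset.mem_univ, true_and, Finset.mem_product, and_true]
    unfold redZ
    constructor <;> intro h <;> omega
  rw [h, Finset.card_product, card_val_lt N _ (by omega), Finset.card_univ, ZMod.card]

theorem card_blue (N : ℕ) [NeZero N] :
    (Finset.univ.filter (fun x : ZMod N × ZMod N => ¬ redZ N x)).card
      = (N - (N + 1) / 2) * N := by
  have h1 := Finset.card_filter_add_card_filter_not (s := (Finset.univ : Finset (ZMod N × ZMod N)))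
    (fun x : ZMod N × ZMod N => redZ N x)
  rw [card_red, Finset.card_univ, Fintype.card_prod, ZMod.card] at h1
  have h2 : (N + 1) / 2 ≤ N := by
    have := NeZero.pos N
    omega
  have h3 : (N - (N + 1) / 2) * N + (N + 1) / 2 * N = N * N := by
    rw [← Nat.add_mul, Nat.sub_add_cancel h2]
  omega

/-- The equivariant bijection given by the Chinese remainder theorem. -/
def crt {a b : ℕ} (hab : a.Coprime b) :
    (ZMod (a * b) × ZMod (a * b)) ≃ (ZMod a × ZMod a) × (ZMod b × ZMod b) :=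
  ((ZMod.chineseRemainder hab).toEquiv.prodCongr (ZMod.chineseRemainder hab).toEquiv).trans
    (Equiv.prodProdProdComm _ _ _ _)

theorem crt_apply {a b : ℕ} (hab : a.Coprime b) (x : ZMod (a * b) × ZMod (a * b)) :
    crt hab x = (((ZMod.chineseRemainder hab x.1).1, (ZMod.chineseRemainder hab x.2).1),
      ((ZMod.chineseRemainder hab x.1).2, (ZMod.chineseRemainder hab x.2).2)) := rfl

theorem crt_aff {a b : ℕ} (hab : a.Coprime b) (i : Fin 4) (x : ZMod (a * b) × ZMod (a * b)) :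
    crt hab (aff (a * b) i x) = (aff a i (crt hab x).1, aff b i (crt hab x).2) := by
  fin_cases i <;> simp [crt_apply, aff]

theorem prodGap_aux (a b : ℕ) [NeZero a] [NeZero b] (hab : a.Coprime b) (hb : 2 ≤ b)
    (φ : ZMod a × ZMod a → ZMod b × ZMod b → ℝ)
    (hφ : ∀ y z, redZ a y → ¬ redZ b z → φ y z = 0) :
    ∑ y, ∑ z, φ y z ^ 2 ≤ 72 * ∑ i, ∑ y, ∑ z, (φ (aff a i y) (aff b i z) - φ y z) ^ 2 := by
  have hne : NeZero (a * b) := ⟨Nat.mul_ne_zero (NeZero.ne a) (NeZero.ne b)⟩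
  set Φ : (ZMod a × ZMod a) × (ZMod b × ZMod b) → ℝ := fun p => φ p.1 p.2 with hΦ
  have hg := gap (a * b) (fun x => Φ (crt hab x))
  have e0 : ∑ x, (Φ (crt hab x)) ^ 2 = ∑ p, Φ p ^ 2 :=
    Equiv.sum_comp (crt hab) (fun p => Φ p ^ 2)
  have e1 : ∑ x, Φ (crt hab x) = ∑ p, Φ p := Equiv.sum_comp (crt hab) Φ
  have es : ∀ i : Fin 4, ∑ x, (Φ (crt hab (aff (a * b) i x)) - Φ (crt hab x)) ^ 2
      = ∑ p, (Φ (aff a i p.1, aff b i p.2) - Φ p) ^ 2 := by
    intro i
    rw [← Equiv.sum_comp (crt hab) (fun p => (Φ (aff a i p.1, aff b i p.2) - Φ p) ^ 2)]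
    apply Finset.sum_congr rfl
    intro x _
    rw [crt_aff]
  have hE : ∑ i, ∑ p, (Φ (aff a i p.1, aff b i p.2) - Φ p) ^ 2
      = ∑ x : ZMod (a * b) × ZMod (a * b), (Φ (crt hab (x.1 + 1, x.2)) - Φ (crt hab x)) ^ 2
        + ∑ x : ZMod (a * b) × ZMod (a * b), (Φ (crt hab (x.1, x.2 + 1)) - Φ (crt hab x)) ^ 2
        + ∑ x : ZMod (a * b) × ZMod (a * b), (Φ (crt hab (x.1 + x.2, x.2)) - Φ (crt hab x)) ^ 2
        + ∑ x : ZMod (a * b) × ZMod (a * b), (Φ (crt hab (x.1, x.2 + x.1)) - Φ (crt hab x)) ^ 2 := by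
    rw [Fin.sum_univ_four, ← es 0, ← es 1, ← es 2, ← es 3]
    rfl
  rw [e0, e1, ← hE] at hg
  -- Cauchy-Schwarz on the support
  set Ex : Finset ((ZMod a × ZMod a) × (ZMod b × ZMod b)) :=
    (Finset.univ.filter (fun x : ZMod a × ZMod a => redZ a x)) ×ˢ
      (Finset.univ.filter (fun x : ZMod b × ZMod b => ¬ redZ b x)) with hEx
  have hcs := cs_support Φ Ex (by
    intro p hp
    rw [hEx, Finset.mem_product, Finset.mem_filter, Finset.mem_filter] at hp
    exact hφ p.1 p.2 hp.1.2 hp.2.2)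
  have hcard : (Fintype.card ((ZMod a × ZMod a) × (ZMod b × ZMod b)) : ℝ) = ((a * b : ℕ) : ℝ) ^ 2 := by
    simp only [Fintype.card_prod, ZMod.card]
    push_cast
    ring
  have hExcard : ((a * b : ℕ) : ℝ) ^ 2 ≤ 6 * (Ex.card : ℝ) := by
    rw [hEx, Finset.card_product, card_red, card_blue]
    have h1 : a ≤ 2 * ((a + 1) / 2) := by omega
    have h2 : b ≤ 3 * (b - (b + 1) / 2) := by omega
    have h3 : (a * b) ^ 2 ≤ 6 * (((a + 1) / 2 * a) * ((b - (b + 1) / 2) * b)) := by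
      calc (a * b) ^ 2 = (a * b) * (a * b) := by ring
        _ ≤ ((2 * ((a + 1) / 2)) * (3 * (b - (b + 1) / 2))) * (a * b) :=
          Nat.mul_le_mul_right _ (Nat.mul_le_mul h1 h2)
        _ = _ := by ring
    exact_mod_cast h3
  rw [hcard] at hcs
  set S2 := ∑ p, Φ p ^ 2 with hS2
  set En := ∑ i, ∑ p, (Φ (aff a i p.1, aff b i p.2) - Φ p) ^ 2 with hEn
  have hS2nn : 0 ≤ S2 := Finset.sum_nonneg (fun p _ => sq_nonneg _)
  have hNpos : (0 : ℝ) < ((a * b : ℕ) : ℝ) ^ 2 := by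
    have : (0 : ℝ) < ((a * b : ℕ) : ℝ) := by exact_mod_cast NeZero.pos (a * b)
    positivity
  have hkey : (Ex.card : ℝ) * S2 ≤ 12 * ((a * b : ℕ) : ℝ) ^ 2 * En := by linarith
  have hfin : ((a * b : ℕ) : ℝ) ^ 2 * S2 ≤ ((a * b : ℕ) : ℝ) ^ 2 * (72 * En) := by
    calc ((a * b : ℕ) : ℝ) ^ 2 * S2 ≤ (6 * (Ex.card : ℝ)) * S2 :=
          mul_le_mul_of_nonneg_right hExcard hS2nn
      _ = 6 * ((Ex.card : ℝ) * S2) := by ring
      _ ≤ 6 * (12 * ((a * b : ℕ) : ℝ) ^ 2 * En) := by linarith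
      _ = _ := by ring
  have hres : S2 ≤ 72 * En := le_of_mul_le_mul_left hfin hNpos
  have c1 : ∑ y, ∑ z, φ y z ^ 2 = S2 := by
    rw [hS2]
    exact (Fintype.sum_prod_type (fun p => Φ p ^ 2)).symm
  have c2 : ∑ i, ∑ y, ∑ z, (φ (aff a i y) (aff b i z) - φ y z) ^ 2 = En := by
    rw [hEn]
    apply Finset.sum_congr rfl
    intro i _
    exact (Fintype.sum_prod_type (fun p => (Φ (aff a i p.1, aff b i p.2) - Φ p) ^ 2)).symm
  rw [c1, c2]
  exact hres

end Vale.Agent.P090
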