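import Mathlib

namespace Vale.Agent.P090

open Finset ComplexConjugate

variable (N : ℕ) [NeZero N]

/-- The finite Fourier transform on `(ZMod N)^2`. -/
noncomputable def ft (f : ZMod N × ZMod N → ℝ) (k : ZMod N × ZMod N) : ℂ :=
  ∑ x, (f x : ℂ) * ZMod.stdAddChar (-(x.1 * k.1 + x.2 * k.2))

theorem orth (d : ZMod N × ZMod N) :
    ∑ k : ZMod N × ZMod N, (ZMod.stdAddChar (d.1 * k.1 + d.2 * k.2) : ℂ)
      = if d = 0 then (N : ℂ) ^ 2 else 0 := by
  have h1 := AddChar.sum_mulShift (R' := ℂ) d.1 (ZMod.isPrimitive_stdAddChar N)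
  have h2 := AddChar.sum_mulShift (R' := ℂ) d.2 (ZMod.isPrimitive_stdAddChar N)
  rw [Fintype.sum_prod_type]
  simp only [AddChar.map_add_eq_mul]
  simp_rw [← Finset.mul_sum]
  rw [← Finset.sum_mul]
  simp_rw [mul_comm d.1, mul_comm d.2]
  rw [h1, h2, ZMod.card]
  by_cases e1 : d.1 = 0
  · by_cases e2 : d.2 = 0
    · have : d = 0 := Prod.ext e1 e2
      simp [this, sq]
    · have : d ≠ 0 := fun h => e2 (by rw [h]; rfl)
      simp [e2, this]
  · have : d ≠ 0 := fun h => e1 (by rw [h]; rfl)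
    simp [e1, this]

theorem plancherel (f : ZMod N × ZMod N → ℝ) :
    ∑ k, ‖ft N f k‖ ^ 2 = (N : ℝ) ^ 2 * ∑ x, f x ^ 2 := by
  have key : ∑ k, ft N f k * conj (ft N f k) = (N : ℂ) ^ 2 * ∑ x, (f x : ℂ) ^ 2 := by
    have e1 : ∀ k, ft N f k * conj (ft N f k) = ∑ x, ∑ x', (f x : ℂ) * (f x' : ℂ) *
        ZMod.stdAddChar ((x'.1 - x.1) * k.1 + (x'.2 - x.2) * k.2) := by
      intro k
      unfold ft
      rw [map_sum, Finset.sum_mul_sum]
      apply Finset.sum_congr rfl; intro x _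
      apply Finset.sum_congr rfl; intro x' _
      rw [map_mul, Complex.conj_ofReal, ← AddChar.map_neg_eq_conj, neg_neg]
      have : (x'.1 - x.1) * k.1 + (x'.2 - x.2) * k.2
          = -(x.1 * k.1 + x.2 * k.2) + (x'.1 * k.1 + x'.2 * k.2) := by ring
      have h : (ZMod.stdAddChar ((x'.1 - x.1) * k.1 + (x'.2 - x.2) * k.2) : ℂ)
          = ZMod.stdAddChar (-(x.1 * k.1 + x.2 * k.2)) * ZMod.stdAddChar (x'.1 * k.1 + x'.2 * k.2) := by
        rw [this, AddChar.map_add_eq_mul]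
      rw [h]
      ring
    simp_rw [e1]
    rw [Finset.sum_comm, Finset.mul_sum]
    apply Finset.sum_congr rfl; intro x _
    rw [Finset.sum_comm]
    simp_rw [← Finset.mul_sum]
    have e2 : ∀ x' : ZMod N × ZMod N,
        ∑ k : ZMod N × ZMod N, (ZMod.stdAddChar ((x'.1 - x.1) * k.1 + (x'.2 - x.2) * k.2) : ℂ)
          = if x' = x then (N : ℂ) ^ 2 else 0 := by
      intro x'
      have := orth N (x' - x)
      simp only [Prod.fst_sub, Prod.snd_sub, sub_eq_zero] at this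
      exact this
    simp_rw [e2]
    simp only [mul_ite, mul_zero, Finset.sum_ite_eq', Finset.mem_univ, if_true]
    ring
  have h2 : ((∑ k, ‖ft N f k‖ ^ 2 : ℝ) : ℂ) = (((N : ℝ) ^ 2 * ∑ x, f x ^ 2 : ℝ) : ℂ) := by
    push_cast
    rw [← key]
    apply Finset.sum_congr rfl; intro k _
    rw [Complex.mul_conj, Complex.normSq_eq_norm_sq]
    push_cast
    rfl
  exact_mod_cast h2

theorem ft_zero (f : ZMod N × ZMod N → ℝ) : ‖ft N f 0‖ ^ 2 = (∑ x, f x) ^ 2 := by
  have : ft N f 0 = ((∑ x, f x : ℝ) : ℂ) := by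
    unfold ft
    simp
  rw [this, Complex.norm_real, Real.norm_eq_abs, sq_abs]

theorem ft_sub (f g : ZMod N × ZMod N → ℝ) (k : ZMod N × ZMod N) :
    ft N (fun x => f x - g x) k = ft N f k - ft N g k := by
  unfold ft
  rw [← Finset.sum_sub_distrib]
  apply Finset.sum_congr rfl; intro x _
  push_cast
  ring

theorem ft_comp (f : ZMod N × ZMod N → ℝ) (σ : Equiv.Perm (ZMod N × ZMod N))
    (k : ZMod N × ZMod N) :
    ft N (fun x => f (σ x)) k
      = ∑ x, (f x : ℂ) * ZMod.stdAddChar (-((σ.symm x).1 * k.1 + (σ.symm x).2 * k.2)) := by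
  unfold ft
  rw [← Equiv.sum_comp σ (fun x => (f x : ℂ) *
    ZMod.stdAddChar (-((σ.symm x).1 * k.1 + (σ.symm x).2 * k.2)))]
  simp only [Equiv.symm_apply_apply]

theorem ft_shift1 (f : ZMod N × ZMod N → ℝ) (k : ZMod N × ZMod N) :
    ft N (fun x => f (x.1 + 1, x.2)) k = ZMod.stdAddChar k.1 * ft N f k := by
  have h := ft_comp N f ⟨fun x => (x.1 + 1, x.2), fun x => (x.1 - 1, x.2), fun x => by simp,
    fun x => by simp⟩ k
  simp only [Equiv.coe_fn_mk, Equiv.coe_fn_symm_mk] at h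
  rw [h]
  unfold ft
  rw [Finset.mul_sum]
  apply Finset.sum_congr rfl; intro x _
  have : -((x.1 - 1) * k.1 + x.2 * k.2) = k.1 + -(x.1 * k.1 + x.2 * k.2) := by ring
  rw [this, AddChar.map_add_eq_mul]
  ring

theorem ft_shift2 (f : ZMod N × ZMod N → ℝ) (k : ZMod N × ZMod N) :
    ft N (fun x => f (x.1, x.2 + 1)) k = ZMod.stdAddChar k.2 * ft N f k := by
  have h := ft_comp N f ⟨fun x => (x.1, x.2 + 1), fun x => (x.1, x.2 - 1), fun x => by simp,
    fun x => by simp⟩ k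
  simp only [Equiv.coe_fn_mk, Equiv.coe_fn_symm_mk] at h
  rw [h]
  unfold ft
  rw [Finset.mul_sum]
  apply Finset.sum_congr rfl; intro x _
  have : -(x.1 * k.1 + (x.2 - 1) * k.2) = k.2 + -(x.1 * k.1 + x.2 * k.2) := by ring
  rw [this, AddChar.map_add_eq_mul]
  ring

theorem ft_shear1 (f : ZMod N × ZMod N → ℝ) (k : ZMod N × ZMod N) :
    ft N (fun x => f (x.1 + x.2, x.2)) k = ft N f (k.1, k.2 - k.1) := by
  have h := ft_comp N f ⟨fun x => (x.1 + x.2, x.2), fun x => (x.1 - x.2, x.2), fun x => by simp,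
    fun x => by simp⟩ k
  simp only [Equiv.coe_fn_mk, Equiv.coe_fn_symm_mk] at h
  rw [h]
  unfold ft
  apply Finset.sum_congr rfl; intro x _
  have : -((x.1 - x.2) * k.1 + x.2 * k.2) = -(x.1 * k.1 + x.2 * (k.2 - k.1)) := by ring
  rw [this]

theorem ft_shear2 (f : ZMod N × ZMod N → ℝ) (k : ZMod N × ZMod N) :
    ft N (fun x => f (x.1, x.2 + x.1)) k = ft N f (k.1 - k.2, k.2) := by
  have h := ft_comp N f ⟨fun x => (x.1, x.2 + x.1), fun x => (x.1, x.2 - x.1), fun x => by simp,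
    fun x => by simp⟩ k
  simp only [Equiv.coe_fn_mk, Equiv.coe_fn_symm_mk] at h
  rw [h]
  unfold ft
  apply Finset.sum_congr rfl; intro x _
  have : -(x.1 * k.1 + (x.2 - x.1) * k.2) = -(x.1 * (k.1 - k.2) + x.2 * k.2) := by ring
  rw [this]

theorem char_far (t : ZMod N) (h : (N : ℤ) ≤ 4 * |t.valMinAbs|) :
    2 ≤ ‖(ZMod.stdAddChar t : ℂ) - 1‖ ^ 2 := by
  set v := t.valMinAbs with hv
  have hNpos : (0 : ℝ) < N := by exact_mod_cast NeZero.pos N
  set θ : ℝ := 2 * Real.pi * v / N with hθ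
  have e1 : (ZMod.stdAddChar t : ℂ) = Complex.exp ((θ : ℂ) * Complex.I) := by
    have := ZMod.stdAddChar_coe (N := N) v
    rw [hv, ZMod.coe_valMinAbs] at this
    rw [this, hθ]
    congr 1
    push_cast
    ring
  have e2 : ‖(ZMod.stdAddChar t : ℂ) - 1‖ ^ 2 = 2 - 2 * Real.cos θ := by
    rw [e1, Complex.sq_norm, Complex.normSq_apply]
    simp only [Complex.sub_re, Complex.sub_im, Complex.exp_ofReal_mul_I_re,
      Complex.exp_ofReal_mul_I_im, Complex.one_re, Complex.one_im, sub_zero]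
    have := Real.sin_sq_add_cos_sq θ
    nlinarith
  rw [e2]
  have hmem := t.valMinAbs_mem_Ioc
  rw [← hv] at hmem
  have habs : |θ| = 2 * Real.pi * |(v : ℝ)| / N := by
    rw [hθ, abs_div, abs_mul, abs_of_pos (by positivity : (0 : ℝ) < 2 * Real.pi), abs_of_pos hNpos]
  have hvabs1 : (N : ℝ) ≤ 4 * |(v : ℝ)| := by exact_mod_cast h
  have hvabs2 : 2 * |(v : ℝ)| ≤ N := by
    have h1 : 2 * |v| ≤ (N : ℤ) := by
      rcases abs_cases v with ⟨e, _⟩ | ⟨e, _⟩ <;> rw [e]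
      · linarith [hmem.2]
      · linarith [hmem.1]
    exact_mod_cast h1
  have hpi := Real.pi_pos
  have c1 : Real.pi / 2 ≤ |θ| := by
    rw [habs, le_div_iff₀ hNpos]
    nlinarith
  have c2 : |θ| ≤ Real.pi + Real.pi / 2 := by
    rw [habs, div_le_iff₀ hNpos]
    nlinarith
  have := Real.cos_nonpos_of_pi_div_two_le_of_le c1 c2
  rw [Real.cos_abs] at this
  linarith

end Vale.Agent.P090
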