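import Vale.Agent.P090.Rigid

namespace Vale.Agent.P090

open Set Classical Finset

section reals

variable {α : Type}

theorem sum_neg_part (Z : Finset α) (c : α → ℝ) :
    ∑ a ∈ Z, max (-c a) 0 = -∑ a ∈ Z.filter (fun a => c a < 0), c a := by
  rw [Finset.sum_filter, ← Finset.sum_neg_distrib]
  apply Finset.sum_congr rfl
  intro a _
  split_ifs with h
  · exact max_eq_left (by linarith)
  · rw [neg_zero]; exact max_eq_right (by linarith)

theorem sum_pos_part (Z : Finset α) (p : α → Prop) [DecidablePred p] (c : α → ℝ) :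
    ∃ S : Finset α, (∀ a ∈ S, p a) ∧
      ∑ a ∈ Z, (if p a then max (c a) 0 else 0) = ∑ a ∈ S, c a := by
  refine ⟨Z.filter (fun a => p a ∧ 0 < c a), fun a ha => (Finset.mem_filter.mp ha).2.1, ?_⟩
  rw [Finset.sum_filter]
  apply Finset.sum_congr rfl
  intro a _
  by_cases hp : p a
  · by_cases hc : 0 < c a
    · simp [hp, hc, hc.le]
    · simp only [hp, hc, if_true, and_false, if_false]
      exact max_eq_right (by linarith)
  · simp [hp]

theorem sum_abs_le (Z : Finset α) (c : α → ℝ) (B : ℝ)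
    (h : ∀ S : Finset α, S ⊆ Z → |∑ a ∈ S, c a| ≤ B) : ∑ a ∈ Z, |c a| ≤ 2 * B := by
  have h1 := (abs_le.mp (h (Z.filter (fun a => 0 ≤ c a)) (Finset.filter_subset _ _))).2
  have h2 := (abs_le.mp (h (Z.filter (fun a => ¬ 0 ≤ c a)) (Finset.filter_subset _ _))).1
  have h3 : ∑ a ∈ Z, |c a| = ∑ a ∈ Z.filter (fun a => 0 ≤ c a), c a
      - ∑ a ∈ Z.filter (fun a => ¬ 0 ≤ c a), c a := by
    rw [← Finset.sum_filter_add_sum_filter_not Z (fun a => 0 ≤ c a) (fun a => |c a|), sub_eq_add_neg,
      ← Finset.sum_neg_distrib]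
    congr 1
    · apply Finset.sum_congr rfl
      intro a ha
      exact abs_of_nonneg (Finset.mem_filter.mp ha).2
    · apply Finset.sum_congr rfl
      intro a ha
      exact abs_of_neg (not_le.mp (Finset.mem_filter.mp ha).2)
  rw [h3]
  linarith

theorem sqrt_sub_sq_le {u v : ℝ} (hu : 0 ≤ u) (hv : 0 ≤ v) :
    (Real.sqrt u - Real.sqrt v) ^ 2 ≤ |u - v| := by
  have h1 := Real.sqrt_nonneg u
  have h2 := Real.sqrt_nonneg v
  have h3 : u - v = (Real.sqrt u - Real.sqrt v) * (Real.sqrt u + Real.sqrt v) := by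
    have e1 := Real.sq_sqrt hu
    have e2 := Real.sq_sqrt hv
    nlinarith
  rw [h3, abs_mul, sq, ← abs_mul_abs_self (Real.sqrt u - Real.sqrt v)]
  apply mul_le_mul_of_nonneg_left _ (abs_nonneg _)
  rw [abs_of_nonneg (add_nonneg h1 h2), abs_le]
  constructor <;> linarith

end reals

section kern

variable {ι X : Type} {s : ι → Equiv.Perm X} {red : X → Prop} {δ : ℝ} {μ : X → Set X → ℝ}

theorem Kern.empty (h : Kern s red δ μ) (x : X) : μ x ∅ = 0 := by
  have := h.add x ∅ ∅ (by simp)
  simp only [Set.union_empty] at this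
  linarith

theorem Kern.finset (h : Kern s red δ μ) (x : X) (S : Finset X) :
    μ x (↑S : Set X) = ∑ a ∈ S, μ x {a} := by
  induction S using Finset.induction_on with
  | empty => simpa using h.empty x
  | insert a S ha ih =>
    rw [Finset.sum_insert ha, Finset.coe_insert, Set.insert_eq, h.add x {a} ↑S (by
      rw [Set.disjoint_singleton_left]; exact_mod_cast ha), ih]

theorem Kern.finset_image (h : Kern s red δ μ) (x : X) (i : ι) (S : Finset X) :
    μ x (s i '' (↑S : Set X)) = ∑ a ∈ S, μ x {s i a} := by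
  have : s i '' (↑S : Set X) = ↑(S.image (s i)) := by simp
  rw [this, h.finset, Finset.sum_image (fun a _ b _ hab => (s i).injective hab)]

end kern

section fibred

variable {ι : Type} [Fintype ι] {Y : ℕ → Type} [∀ j, Fintype (Y j)]

/-- The fibrewise action on the disjoint union. -/
def sig (σ : ∀ j, ι → Equiv.Perm (Y j)) (i : ι) : Equiv.Perm (Σ j, Y j) :=
  Equiv.sigmaCongrRight (fun j => σ j i)

/-- The fibrewise colouring of the disjoint union. -/
def redS (r : ∀ j, Y j → Prop) : (Σ j, Y j) → Prop := fun a => r a.1 a.2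

/-- Spectral gap for the diagonal action on products of two different fibres, for functions
vanishing on the pairs (red, not red). -/
def ProdGap (σ : ∀ j, ι → Equiv.Perm (Y j)) (r : ∀ j, Y j → Prop) (C : ℝ) : Prop :=
  ∀ n j, n ≠ j → ∀ φ : Y n → Y j → ℝ, (∀ y z, r n y → ¬ r j z → φ y z = 0) →
    ∑ y, ∑ z, φ y z ^ 2 ≤ C * ∑ i, ∑ y, ∑ z, (φ (σ n i y) (σ j i z) - φ y z) ^ 2

variable {σ : ∀ j, ι → Equiv.Perm (Y j)} {r : ∀ j, Y j → Prop}

theorem no_kern {C : ℝ} (hC : 0 ≤ C) (hgap : ProdGap σ r C) (hne : ∀ j, Nonempty (Y j)) {δ : ℝ}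
    (hδ : 0 ≤ δ) (hsmall : (3 + 6 * C * Fintype.card ι) * δ < 3 / 4)
    (μ : (Σ j, Y j) → Set (Σ j, Y j) → ℝ) : ¬ Kern (sig σ) (redS r) δ μ := by
  intro h
  obtain ⟨K, hK, hKA⟩ := h.tight (1 / 4) (by norm_num)
  obtain ⟨J, hJ⟩ : ∃ J : ℕ, ∀ a ∈ K, a.1 < J := by
    obtain ⟨b, hb⟩ := (hK.image Sigma.fst).bddAbove
    exact ⟨b + 1, fun a ha => Nat.lt_succ_of_le (hb ⟨a, ha, rfl⟩)⟩
  set Z : Finset (Σ j, Y j) := (Finset.range J).sigma (fun _ => Finset.univ) with hZ
  have memZ : ∀ a : (Σ j, Y j), a ∈ Z ↔ a.1 < J := by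
    intro a
    simp [hZ]
  -- the kernel
  set k : Y J → (Σ j, Y j) → ℝ := fun y a => μ ⟨J, y⟩ {a} with hk
  set kt : Y J → (Σ j, Y j) → ℝ :=
    fun y a => if (r J y ∧ ¬ r a.1 a.2) then 0 else max (k y a) 0 with hkt
  have kt_nonneg : ∀ y a, 0 ≤ kt y a := by
    intro y a
    simp only [hkt]
    split_ifs
    · exact le_refl _
    · exact le_max_right _ _
  -- total mass
  have total : ∀ y, 3 / 4 - δ ≤ ∑ a ∈ Z, k y a := by
    intro y
    have h1 := h.add ⟨J, y⟩ (↑Z) (↑Z)ᶜ disjoint_compl_right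
    rw [Set.union_compl_self] at h1
    have h2 := h.total ⟨J, y⟩
    have h3 := (abs_le.mp (hKA (↑Z)ᶜ (by
      rw [Set.disjoint_left]
      intro a ha haK
      exact ha (by exact_mod_cast (memZ a).mpr (hJ a haK))) ⟨J, y⟩)).2
    have h4 := h.finset ⟨J, y⟩ Z
    simp only [hk]
    linarith
  -- claim A
  have claimA : ∀ y, ∑ a ∈ Z, |kt y a - k y a| ≤ 2 * δ := by
    intro y
    have hpt : ∀ a, |kt y a - k y a| ≤ max (-k y a) 0
        + (if (r J y ∧ ¬ r a.1 a.2) then max (k y a) 0 else 0) := by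
      intro a
      simp only [hkt]
      by_cases hp : (r J y ∧ ¬ r a.1 a.2)
      · simp only [hp, if_true, not_false_eq_true, and_self]
        rcases le_total 0 (k y a) with hc | hc
        · rw [max_eq_right (by linarith), max_eq_left hc, zero_sub, abs_neg, abs_of_nonneg hc]
          linarith
        · rw [max_eq_left (by linarith), max_eq_right hc, zero_sub, abs_neg, abs_of_nonpos hc]
          linarith
      · simp only [hp, if_false]
        rcases le_total 0 (k y a) with hc | hc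
        · rw [max_eq_right (by linarith : -k y a ≤ 0), max_eq_left hc]
          simp
        · rw [max_eq_left (by linarith : 0 ≤ -k y a), max_eq_right hc, zero_sub, abs_neg,
            abs_of_nonpos hc]
          linarith
    have h1 : ∑ a ∈ Z, max (-k y a) 0 ≤ δ := by
      rw [sum_neg_part]
      have := h.nonneg ⟨J, y⟩ (↑(Z.filter (fun a => k y a < 0)))
      rw [h.finset] at this
      simp only [hk] at this ⊢
      linarith
    have h2 : ∑ a ∈ Z, (if (r J y ∧ ¬ r a.1 a.2) then max (k y a) 0 else 0) ≤ δ := by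
      obtain ⟨S, hS, hsum⟩ := sum_pos_part Z (fun a => r J y ∧ ¬ r a.1 a.2) (k y)
      rw [hsum]
      by_cases hr : r J y
      · have := h.colour ⟨J, y⟩ hr (↑S) (by
            intro a ha
            exact (hS a (by exact_mod_cast ha)).2)
        rw [h.finset] at this
        exact this
      · have : S = ∅ := by
          apply Finset.eq_empty_of_forall_notMem
          intro a ha
          exact hr (hS a ha).1
        rw [this, Finset.sum_empty]
        exact hδ
    calc ∑ a ∈ Z, |kt y a - k y a| ≤ ∑ a ∈ Z, (max (-k y a) 0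
        + (if (r J y ∧ ¬ r a.1 a.2) then max (k y a) 0 else 0)) :=
          Finset.sum_le_sum (fun a _ => hpt a)
      _ = _ + _ := Finset.sum_add_distrib
      _ ≤ δ + δ := add_le_add h1 h2
      _ = 2 * δ := by ring
  -- claim B
  have claimB : ∀ i y, ∑ a ∈ Z, |k (σ J i y) (sig σ i a) - k y a| ≤ 2 * δ := by
    intro i y
    apply sum_abs_le
    intro S _
    rw [Finset.sum_sub_distrib]
    have h1 := h.equi i ⟨J, y⟩ ↑S
    rw [h.finset, h.finset_image, abs_sub_comm] at h1
    exact h1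
  -- reindexing
  have reindex : ∀ i (f : (Σ j, Y j) → ℝ), ∑ a ∈ Z, f (sig σ i a) = ∑ a ∈ Z, f a := by
    intro i f
    apply Finset.sum_equiv (sig σ i)
    · intro a
      rw [memZ, memZ]
      rfl
    · intro a _
      rfl
  -- claim C
  have claimC : ∀ i y, ∑ a ∈ Z, |kt (σ J i y) (sig σ i a) - kt y a| ≤ 6 * δ := by
    intro i y
    have h1 := claimA (σ J i y)
    rw [← reindex i (fun a => |kt (σ J i y) a - k (σ J i y) a|)] at h1
    have h2 := claimB i y
    have h3 := claimA y
    calc ∑ a ∈ Z, |kt (σ J i y) (sig σ i a) - kt y a|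
        ≤ ∑ a ∈ Z, (|kt (σ J i y) (sig σ i a) - k (σ J i y) (sig σ i a)|
            + |k (σ J i y) (sig σ i a) - k y a| + |kt y a - k y a|) := by
          apply Finset.sum_le_sum
          intro a _
          have e : kt (σ J i y) (sig σ i a) - kt y a
              = (kt (σ J i y) (sig σ i a) - k (σ J i y) (sig σ i a))
                + (k (σ J i y) (sig σ i a) - k y a) + -(kt y a - k y a) := by ring
          rw [e]
          refine (abs_add_three _ _ _).trans ?_
          rw [abs_neg]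
      _ = _ + _ + _ := by rw [Finset.sum_add_distrib, Finset.sum_add_distrib]
      _ ≤ 2 * δ + 2 * δ + 2 * δ := by gcongr
      _ = 6 * δ := by ring
  -- claim D
  have claimD : ∀ y, 3 / 4 - 3 * δ ≤ ∑ a ∈ Z, kt y a := by
    intro y
    have h1 := total y
    have h2 := claimA y
    have h3 : ∑ a ∈ Z, k y a - ∑ a ∈ Z, kt y a ≤ ∑ a ∈ Z, |kt y a - k y a| := by
      rw [← Finset.sum_sub_distrib]
      apply Finset.sum_le_sum
      intro a _
      rw [abs_sub_comm]
      exact le_abs_self _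
    linarith
  -- apply the gap on each fibre
  have fibre : ∀ j ∈ Finset.range J, ∑ y, ∑ z, kt y ⟨j, z⟩
      ≤ C * ∑ i, ∑ y, ∑ z, |kt (σ J i y) ⟨j, σ j i z⟩ - kt y ⟨j, z⟩| := by
    intro j hj
    have hne' : J ≠ j := (Finset.mem_range.mp hj).ne'
    have h1 := hgap J j hne' (fun y z => Real.sqrt (kt y ⟨j, z⟩)) (by
      intro y z hy hz
      have : kt y ⟨j, z⟩ = 0 := by
        simp only [hkt]
        rw [if_pos ⟨hy, hz⟩]
      simp only [this, Real.sqrt_zero])
    calc ∑ y, ∑ z, kt y ⟨j, z⟩ = ∑ y, ∑ z, Real.sqrt (kt y ⟨j, z⟩) ^ 2 := by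
          apply Finset.sum_congr rfl; intro y _
          apply Finset.sum_congr rfl; intro z _
          rw [Real.sq_sqrt (kt_nonneg _ _)]
      _ ≤ _ := h1
      _ ≤ _ := by
          apply mul_le_mul_of_nonneg_left _ hC
          apply Finset.sum_le_sum; intro i _
          apply Finset.sum_le_sum; intro y _
          apply Finset.sum_le_sum; intro z _
          exact sqrt_sub_sq_le (kt_nonneg _ _) (kt_nonneg _ _)
  have sumZ : ∀ f : (Σ j, Y j) → ℝ, ∑ a ∈ Z, f a = ∑ j ∈ Finset.range J, ∑ z, f ⟨j, z⟩ := by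
    intro f
    rw [hZ, Finset.sum_sigma]
  have lower : (Fintype.card (Y J) : ℝ) * (3 / 4 - 3 * δ) ≤ ∑ y, ∑ a ∈ Z, kt y a := by
    calc (Fintype.card (Y J) : ℝ) * (3 / 4 - 3 * δ) = ∑ _y : Y J, (3 / 4 - 3 * δ) := by
          rw [Finset.sum_const, Finset.card_univ, nsmul_eq_mul]
      _ ≤ _ := Finset.sum_le_sum (fun y _ => claimD y)
  have upper : ∑ y, ∑ a ∈ Z, kt y a
      ≤ C * ((Fintype.card ι : ℝ) * ((Fintype.card (Y J) : ℝ) * (6 * δ))) := by
    calc ∑ y, ∑ a ∈ Z, kt y a = ∑ j ∈ Finset.range J, ∑ y, ∑ z, kt y ⟨j, z⟩ := by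
          symm
          rw [Finset.sum_comm]
          apply Finset.sum_congr rfl
          intro y _
          exact (sumZ _).symm
      _ ≤ ∑ j ∈ Finset.range J, C * ∑ i, ∑ y, ∑ z, |kt (σ J i y) ⟨j, σ j i z⟩ - kt y ⟨j, z⟩| :=
          Finset.sum_le_sum fibre
      _ = C * ∑ i, ∑ y, ∑ a ∈ Z, |kt (σ J i y) (sig σ i a) - kt y a| := by
          rw [← Finset.mul_sum, Finset.sum_comm]
          congr 1
          apply Finset.sum_congr rfl; intro i _
          rw [Finset.sum_comm]
          apply Finset.sum_congr rfl; intro y _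
          rw [sumZ]
          rfl
      _ ≤ C * ∑ _i : ι, ∑ _y : Y J, (6 * δ) := by
          apply mul_le_mul_of_nonneg_left _ hC
          apply Finset.sum_le_sum; intro i _
          apply Finset.sum_le_sum; intro y _
          exact claimC i y
      _ = _ := by
          simp only [Finset.sum_const, Finset.card_univ, nsmul_eq_mul]
  have hcard : (0 : ℝ) < Fintype.card (Y J) := by
    have := hne J
    exact_mod_cast Fintype.card_pos
  have hfin := lower.trans upper
  have : (Fintype.card (Y J) : ℝ) * (3 / 4 - (3 + 6 * C * Fintype.card ι) * δ) ≤ 0 := by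
    nlinarith
  have h2 : 0 < 3 / 4 - (3 + 6 * C * Fintype.card ι) * δ := by linarith
  have := mul_pos hcard h2
  linarith

end fibred

end Vale.Agent.P090
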