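import Vale.Agent.P090.Family

namespace Vale.Agent.P090

open Set Classical

/-- The moduli: Fermat numbers, which are pairwise coprime. -/
def Nn (j : ℕ) : ℕ := Nat.fermatNumber j

instance (j : ℕ) : NeZero (Nn j) :=
  ⟨by have := Nat.three_le_fermatNumber j; unfold Nn; omega⟩

/-- The fibres `(ZMod (Nn j))^2`. -/
abbrev Yf (j : ℕ) : Type := ZMod (Nn j) × ZMod (Nn j)

/-- The affine generators on each fibre. -/
def sigF : ∀ j, Fin 4 → Equiv.Perm (Yf j) := fun j => aff (Nn j)

/-- The colouring of each fibre. -/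
def redF : ∀ j, Yf j → Prop := fun j => redZ (Nn j)

theorem prodGapF : ProdGap sigF redF 72 := by
  intro n j hnj φ hφ
  exact prodGap_aux (Nn n) (Nn j) (Nat.coprime_fermatNumber_fermatNumber hnj)
    (by have := Nat.three_le_fermatNumber j; unfold Nn; omega) φ hφ

/-- The vertex set of the example. -/
abbrev VF : Type := Vert (Fin 4) (Σ j, Yf j)

/-- The relation of the example. -/
def RF : VF → VF → Prop := Rel (sig sigF) (redS redF)

theorem no_setFn {ε : ℝ} (hε : 0 ≤ ε) (hsmall : ε ≤ 1 / 1000000) (m : VF → Set VF → ℝ) :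
    ¬ SetFn RF (special (Fin 4) (Σ j, Yf j)) ε m := by
  intro h
  have hk := exists_kern hε h
  refine no_kern (C := 72) (by norm_num) prodGapF (fun j => ⟨(0, 0)⟩) (δ := 93 * ε) (by positivity)
    ?_ _ hk
  simp only [Fintype.card_fin]
  norm_num
  linarith

theorem vert_countable {ι X : Type} [Finite ι] [Countable X] : Countable (Vert ι X) := by
  have hL : Countable (Lev ι) := by
    let f : Option (Option ι) → Lev ι := fun a =>
      match a with
      | none => .base
      | some none => .mid
      | some (some i) => .gen i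
    apply Function.Surjective.countable (f := f)
    intro l
    cases l with
    | base => exact ⟨none, rfl⟩
    | mid => exact ⟨some none, rfl⟩
    | gen i => exact ⟨some (some i), rfl⟩
  let g : (Option (Lev ι × Fin 3)) ⊕ (X × Lev ι) → Vert ι X := fun a =>
    match a with
    | .inl none => .col
    | .inl (some (l, t)) => .anchor l t
    | .inr (x, l) => .pt x l
  apply Function.Surjective.countable (f := g)
  intro v
  cases v with
  | anchor l t => exact ⟨.inl (some (l, t)), rfl⟩
  | col => exact ⟨.inl none, rfl⟩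
  | pt x l => exact ⟨.inr (x, l), rfl⟩

theorem main_theorem :
    ∃ (M : Type) (_ : MetricSpace M) (o : M), Countable M ∧
      (∀ x y : M, x ≠ y → dist x y = 1 ∨ dist x y = 2) ∧
      ∀ lam : ℝ, lam ≤ 1 + 1 / 10 ^ 6 → ¬ HasBAP lam (LipFree M o) := by
  let _ : MetricSpace VF := tdMetric RF
  have H : IsTD VF RF := ⟨fun _ _ => rfl⟩
  refine ⟨VF, tdMetric RF, Vert.col, vert_countable, ?_, ?_⟩
  · intro x y hxy
    by_cases hr : RF x y ∨ RF y x
    · exact Or.inl (H.dist_eq_one hxy hr)
    · exact Or.inr (H.dist_eq_two hxy hr)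
  · intro lam hlam hBAP
    have hBAP' : HasBAP (1 + 1 / 1000000) (LipFree VF Vert.col) := by
      intro C hC ε hε
      obtain ⟨T, h1, h2, h3⟩ := hBAP C hC ε hε
      exact ⟨T, h1, h2.trans (hlam.trans (by norm_num)), h3⟩
    obtain ⟨m, hm⟩ := exists_setFn H Vert.col (special (Fin 4) (Σ j, Yf j)) special_finite
      (1 / 1000000) (by norm_num) hBAP'
    exact no_setFn (by norm_num) (le_refl _) m hm

end Vale.Agent.P090
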