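import Vale.Agent.P090.TwoDist

namespace Vale.Agent.P090

open Set Classical

/-- The abstract data extracted from a finite rank operator of norm `≤ 1 + ε` on the free space
which almost fixes the points of `E`: a family of finitely additive set functions. -/
structure SetFn {V : Type} (R : V → V → Prop) (E : Set V) (ε : ℝ) (m : V → Set V → ℝ) : Prop where
  add : ∀ y A B, Disjoint A B → m y (A ∪ B) = m y A + m y B
  univ : ∀ y, m y Set.univ = 1
  lip : ∀ y y' A2 A0, (R y y' ∨ R y' y) → Disjoint A2 A0 → NoEdge R A2 A0 →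
    (m y A2 - m y A0) - (m y' A2 - m y' A0) ≤ 1 + ε
  fix : ∀ x ∈ E, ∀ A2 A0, Disjoint A2 A0 → NoEdge R A2 A0 →
    |(m x A2 - m x A0) - (ch A2 x - ch A0 x)| ≤ ε
  tight : ∀ η : ℝ, 0 < η → ∃ K : Set V, K.Finite ∧ ∀ A, Disjoint A K → ∀ y, |m y A| ≤ η

section general

variable {M : Type} [MetricSpace M] (o : M)

/-- `δ_y` as an element of the free space. -/
noncomputable def dF (y : M) : LipFree M o :=
  ⟨delta o y, Submodule.le_topologicalClosure _ (Submodule.subset_span ⟨y, rfl⟩)⟩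

theorem norm_dF_sub_le (y y' : M) : ‖dF o y - dF o y'‖ ≤ dist y y' := by
  change ‖delta o y - delta o y'‖ ≤ dist y y'
  refine ContinuousLinearMap.opNorm_le_bound _ dist_nonneg (fun f => ?_)
  have h := abs_sub_le_lipConst f y y'
  rw [sub_apply, delta_apply, delta_apply, Real.norm_eq_abs, norm_def, mul_comm]
  exact h

theorem dF_base : dF o o = 0 := by
  apply Subtype.ext
  apply ContinuousLinearMap.ext
  intro f
  change delta o o f = 0
  simp

theorem norm_dF_le (y : M) : ‖dF o y‖ ≤ dist y o := by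
  change ‖delta o y‖ ≤ dist y o
  refine ContinuousLinearMap.opNorm_le_bound _ dist_nonneg (fun f => ?_)
  have h := abs_sub_le_lipConst f y o
  rw [Lip0.map_base, sub_zero] at h
  rw [delta_apply, Real.norm_eq_abs, norm_def, mul_comm]
  exact h

/-- Pairing of an element of the free space with a Lipschitz function. -/
noncomputable def ev (u : LipFree M o) (f : Lip0 M o) : ℝ := (u : StrongDual ℝ (Lip0 M o)) f

theorem ev_sub_left (u v : LipFree M o) (f : Lip0 M o) : ev o (u - v) f = ev o u f - ev o v f := rfl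

theorem ev_sub_right (u : LipFree M o) (f g : Lip0 M o) :
    ev o u (f - g) = ev o u f - ev o u g :=
  map_sub (u : StrongDual ℝ (Lip0 M o)) f g

theorem ev_add_right (u : LipFree M o) (f g : Lip0 M o) :
    ev o u (f + g) = ev o u f + ev o u g :=
  map_add (u : StrongDual ℝ (Lip0 M o)) f g

theorem ev_zero_right (u : LipFree M o) : ev o u 0 = 0 :=
  map_zero (u : StrongDual ℝ (Lip0 M o))

theorem ev_dF (y : M) (f : Lip0 M o) : ev o (dF o y) f = f y := rfl

theorem abs_ev_le (u : LipFree M o) (f : Lip0 M o) : |ev o u f| ≤ ‖u‖ * ‖f‖ := by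
  rw [← Real.norm_eq_abs]
  exact ContinuousLinearMap.le_opNorm (u : StrongDual ℝ (Lip0 M o)) f

theorem abs_ev_le' (u : LipFree M o) (f : Lip0 M o) {a : ℝ} (hu : ‖u‖ ≤ a) (hf : ‖f‖ ≤ 1) :
    |ev o u f| ≤ a := by
  have h0 : 0 ≤ ‖u‖ := norm_nonneg u
  calc |ev o u f| ≤ ‖u‖ * ‖f‖ := abs_ev_le o u f
    _ ≤ a * 1 := mul_le_mul hu hf (norm_nonneg f) (h0.trans hu)
    _ = a := mul_one a

/-- Elements of the span of the evaluations are killed by functions vanishing on a finite set. -/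
theorem span_support (v : StrongDual ℝ (Lip0 M o)) (hv : v ∈ Submodule.span ℝ (Set.range (delta o))) :
    ∃ K : Set M, K.Finite ∧ ∀ f : Lip0 M o, (∀ z ∈ K, f z = 0) → v f = 0 := by
  induction hv using Submodule.span_induction with
  | mem x hx =>
    obtain ⟨z, rfl⟩ := hx
    exact ⟨{z}, Set.finite_singleton z, fun f hf => by simpa using hf z rfl⟩
  | zero => exact ⟨∅, Set.finite_empty, fun f _ => rfl⟩
  | add x y _ _ hx hy =>
    obtain ⟨K1, hK1, h1⟩ := hx
    obtain ⟨K2, hK2, h2⟩ := hy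
    refine ⟨K1 ∪ K2, hK1.union hK2, fun f hf => ?_⟩
    rw [add_apply, h1 f (fun z hz => hf z (Or.inl hz)),
      h2 f (fun z hz => hf z (Or.inr hz)), add_zero]
  | smul c x _ hx =>
    obtain ⟨K1, hK1, h1⟩ := hx
    refine ⟨K1, hK1, fun f hf => ?_⟩
    rw [smul_apply, h1 f hf, smul_zero]

theorem free_support (u : LipFree M o) (η : ℝ) (hη : 0 < η) :
    ∃ K : Set M, K.Finite ∧ ∀ f : Lip0 M o, ‖f‖ ≤ 1 → (∀ z ∈ K, f z = 0) →
      |(u : StrongDual ℝ (Lip0 M o)) f| ≤ η := by
  have hu : (u : StrongDual ℝ (Lip0 M o)) ∈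
      closure ((Submodule.span ℝ (Set.range (delta o)) : Submodule ℝ _) : Set (StrongDual ℝ (Lip0 M o))) :=
    u.2
  obtain ⟨v, hv, huv⟩ := Metric.mem_closure_iff.mp hu η hη
  obtain ⟨K, hK, hKv⟩ := span_support o v hv
  refine ⟨K, hK, fun f hf1 hf => ?_⟩
  have h1 : (u : StrongDual ℝ (Lip0 M o)) f = ((u : StrongDual ℝ (Lip0 M o)) - v) f := by
    rw [sub_apply, hKv f hf, sub_zero]
  rw [h1, ← Real.norm_eq_abs]
  calc ‖((u : StrongDual ℝ (Lip0 M o)) - v) f‖ ≤ ‖(u : StrongDual ℝ (Lip0 M o)) - v‖ * ‖f‖ :=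
        ContinuousLinearMap.le_opNorm _ _
    _ ≤ η * 1 := by
        apply mul_le_mul _ hf1 (norm_nonneg _) hη.le
        rw [← dist_eq_norm]; exact huv.le
    _ = η := mul_one _

end general

/-- A finite rank operator maps bounded sets to sets with finite nets. -/
theorem finite_net {X : Type} [NormedAddCommGroup X] [NormedSpace ℝ X] (T : X →L[ℝ] X)
    (hT : FiniteDimensional ℝ (LinearMap.range (T : X →ₗ[ℝ] X))) (r η : ℝ) (hη : 0 < η) :
    ∃ t : Set X, t.Finite ∧ ∀ v : X, ‖v‖ ≤ r → ∃ u ∈ t, ‖T v - u‖ < η := by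
  have := hT
  have : ProperSpace (LinearMap.range (T : X →ₗ[ℝ] X)) := FiniteDimensional.proper_real _
  have hc : IsCompact (Metric.closedBall (0 : LinearMap.range (T : X →ₗ[ℝ] X)) (‖T‖ * |r|)) :=
    isCompact_closedBall _ _
  obtain ⟨t, ht, hcov⟩ := Metric.totallyBounded_iff.mp hc.totallyBounded η hη
  refine ⟨Subtype.val '' t, ht.image _, fun v hv => ?_⟩
  have hmem : (⟨T v, ⟨v, rfl⟩⟩ : LinearMap.range (T : X →ₗ[ℝ] X)) ∈
      Metric.closedBall (0 : LinearMap.range (T : X →ₗ[ℝ] X)) (‖T‖ * |r|) := by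
    rw [mem_closedBall_zero_iff]
    change ‖T v‖ ≤ _
    calc ‖T v‖ ≤ ‖T‖ * ‖v‖ := T.le_opNorm v
      _ ≤ ‖T‖ * |r| := mul_le_mul_of_nonneg_left (hv.trans (le_abs_self r)) (norm_nonneg _)
  have := hcov hmem
  simp only [Set.mem_iUnion, Metric.mem_ball] at this
  obtain ⟨u, hu, hd⟩ := this
  refine ⟨u.1, ⟨u, hu, rfl⟩, ?_⟩
  rw [dist_eq_norm] at hd
  exact hd

variable {V : Type} [MetricSpace V] {R : V → V → Prop}

/-- The set functions attached to an operator on the free space. -/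
noncomputable def mT (H : IsTD V R) (o : V) (T : LipFree V o →L[ℝ] LipFree V o) (y : V)
    (A : Set V) : ℝ :=
  ch A o + ev o (T (dF o y)) (ind H o A)

theorem norm_ind_le (H : IsTD V R) (o : V) (A : Set V) : ‖ind H o A‖ ≤ 1 := by
  have h := norm_ind_sub_le H o (A2 := A) (A0 := ∅) (by simp) (fun a _ b hb => by simp at hb)
  have h0 : ind H o (∅ : Set V) = 0 := by
    apply Lip0.ext; intro a; simp [ch]
  rwa [h0, sub_zero] at h

theorem exists_setFn (H : IsTD V R) (o : V) (E : Set V) (hE : E.Finite) (ε : ℝ) (hε : 0 < ε)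
    (hBAP : HasBAP (1 + ε) (LipFree V o)) : ∃ m : V → Set V → ℝ, SetFn R E ε m := by
  obtain ⟨T, hfin, hnorm, happ⟩ := hBAP (dF o '' E) (hE.image _).isCompact ε hε
  refine ⟨mT H o T, ?_, ?_, ?_, ?_, ?_⟩
  · intro y A B hAB
    simp only [mT, ind_union H o hAB, ch_union hAB, ev_add_right]
    ring
  · intro y
    simp [mT, ind_univ, ch, ev_zero_right]
  · intro y y' A2 A0 hyy hd hn
    have hdist : dist y y' ≤ 1 := by
      by_cases h : y = y'
      · subst h; simp
      · exact (H.dist_eq_one h hyy).le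
    have hT : T (dF o y - dF o y') = T (dF o y) - T (dF o y') := map_sub T _ _
    have h1 : (mT H o T y A2 - mT H o T y A0) - (mT H o T y' A2 - mT H o T y' A0)
        = ev o (T (dF o y - dF o y')) (ind H o A2 - ind H o A0) := by
      rw [hT, ev_sub_left, ev_sub_right, ev_sub_right]
      simp only [mT]
      ring
    rw [h1]
    refine (le_abs_self _).trans ?_
    refine abs_ev_le' o _ _ ?_ (norm_ind_sub_le H o hd hn)
    calc ‖T (dF o y - dF o y')‖ ≤ ‖T‖ * ‖dF o y - dF o y'‖ := T.le_opNorm _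
      _ ≤ (1 + ε) * 1 :=
        mul_le_mul hnorm ((norm_dF_sub_le o y y').trans hdist)
          (norm_nonneg (dF o y - dF o y')) (by positivity)
      _ = 1 + ε := mul_one _
  · intro x hx A2 A0 hd hn
    have h1 : (mT H o T x A2 - mT H o T x A0) - (ch A2 x - ch A0 x)
        = ev o (T (dF o x) - dF o x) (ind H o A2 - ind H o A0) := by
      rw [ev_sub_left, ev_sub_right, ev_sub_right, ev_dF, ev_dF]
      simp only [mT, ind_apply]
      ring
    rw [h1]
    exact abs_ev_le' o _ _ (happ _ ⟨x, hx, rfl⟩).le (norm_ind_sub_le H o hd hn)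
  · intro η hη
    obtain ⟨t, ht, hnet⟩ := finite_net T hfin 2 (η / 2) (by positivity)
    choose! K hKfin hK using fun u : LipFree V o => free_support o u (η / 2) (by positivity)
    refine ⟨{o} ∪ ⋃ u ∈ t, K u, (Set.finite_singleton o).union (ht.biUnion (fun u _ => hKfin u)),
      fun A hA y => ?_⟩
    have hdis := Set.disjoint_left.mp hA
    have hoA : o ∉ A := fun h => hdis h (Or.inl rfl)
    obtain ⟨u, hu, hclose⟩ := hnet (dF o y) ((norm_dF_le o y).trans (H.dist_le_two y o))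
    have hvan : ∀ z ∈ K u, ind H o A z = 0 := by
      intro z hz
      have hzA : z ∉ A := fun h => hdis h (Or.inr (Set.mem_biUnion hu hz))
      simp [ch_not_mem hzA, ch_not_mem hoA]
    have h2 : |ev o u (ind H o A)| ≤ η / 2 := hK u (ind H o A) (norm_ind_le H o A) hvan
    have h3 : |ev o (T (dF o y) - u) (ind H o A)| ≤ η / 2 :=
      abs_ev_le' o _ _ hclose.le (norm_ind_le H o A)
    have h4 : mT H o T y A = ev o (T (dF o y) - u) (ind H o A) + ev o u (ind H o A) := by
      rw [ev_sub_left]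
      simp only [mT, ch_not_mem hoA]
      ring
    rw [h4]
    calc _ ≤ _ + _ := abs_add_le _ _
      _ ≤ η / 2 + η / 2 := add_le_add h3 h2
      _ = η := by ring

end Vale.Agent.P090
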