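import Vale.Agent.P090.Oper

namespace Vale.Agent.P090

open Set Classical

section generic

variable {V : Type} {R : V → V → Prop} {E : Set V} {ε : ℝ} {m : V → Set V → ℝ}

theorem SetFn.empty (h : SetFn R E ε m) (y : V) : m y ∅ = 0 := by
  have := h.add y ∅ ∅ (by simp)
  simp only [Set.union_empty] at this
  linarith

theorem SetFn.compl (h : SetFn R E ε m) (y : V) (A : Set V) : m y Aᶜ = 1 - m y A := by
  have h1 := h.add y A Aᶜ disjoint_compl_right
  rw [Set.union_compl_self, h.univ] at h1
  linarith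

theorem SetFn.diff (h : SetFn R E ε m) (y : V) {A B : Set V} (hAB : A ⊆ B) :
    m y (B \ A) = m y B - m y A := by
  have h1 := h.add y A (B \ A) disjoint_sdiff_right
  rw [Set.union_sdiff_cancel hAB] at h1
  linarith

theorem SetFn.up (h : SetFn R E ε m) {e y : V} (he : e ∈ E) (hy : R y e ∨ R e y) {A2 A0 : Set V}
    (hd : Disjoint A2 A0) (hn : NoEdge R A2 A0) :
    m y A2 - m y A0 ≤ ch A2 e - ch A0 e + 1 + 2 * ε := by
  have h1 := h.lip y e A2 A0 hy hd hn
  have h2 := (abs_le.mp (h.fix e he A2 A0 hd hn)).2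
  linarith

theorem SetFn.lo (h : SetFn R E ε m) {e y : V} (he : e ∈ E) (hy : R y e ∨ R e y) {A2 A0 : Set V}
    (hd : Disjoint A2 A0) (hn : NoEdge R A2 A0) :
    ch A2 e - ch A0 e - 1 - 2 * ε ≤ m y A2 - m y A0 := by
  have h1 := h.lip e y A2 A0 hy.symm hd hn
  have h2 := (abs_le.mp (h.fix e he A2 A0 hd hn)).1
  linarith

/-- `y` is related to the three pairwise unrelated distinct points `e1 e2 e3` of `E`. -/
structure Tripod (R : V → V → Prop) (E : Set V) (y e1 e2 e3 : V) : Prop where
  m1 : e1 ∈ E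
  m2 : e2 ∈ E
  m3 : e3 ∈ E
  r1 : R y e1 ∨ R e1 y
  r2 : R y e2 ∨ R e2 y
  r3 : R y e3 ∨ R e3 y
  n12 : e1 ≠ e2
  n13 : e1 ≠ e3
  n23 : e2 ≠ e3
  u12 : ¬ (R e1 e2 ∨ R e2 e1)
  u13 : ¬ (R e1 e3 ∨ R e3 e1)
  u23 : ¬ (R e2 e3 ∨ R e3 e2)

theorem noEdge_singleton {a b : V} (h : ¬ (R a b ∨ R b a)) : NoEdge R {a} {b} := by
  intro x hx z hz
  rw [Set.mem_singleton_iff] at hx hz
  subst hx; subst hz
  exact h

theorem Tripod.mass_le (h : SetFn R E ε m) {y e1 e2 e3 : V} (t : Tripod R E y e1 e2 e3) :
    m y {e1} ≤ 4 * ε := by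
  -- a1 + a2 - a3 ≤ 2 ε  (compare at e3)
  have hA : m y ({e1} ∪ {e2}) - m y {e3} ≤ 2 * ε := by
    have hd : Disjoint ({e1} ∪ {e2} : Set V) {e3} := by
      rw [Set.disjoint_singleton_right]
      rintro (h1 | h1)
      · exact t.n13 (Set.mem_singleton_iff.mp h1).symm
      · exact t.n23 (Set.mem_singleton_iff.mp h1).symm
    have hn : NoEdge R ({e1} ∪ {e2} : Set V) {e3} := by
      intro a ha b hb
      rw [Set.mem_singleton_iff] at hb
      subst hb
      rcases ha with ha | ha <;> rw [Set.mem_singleton_iff] at ha <;> subst ha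
      · exact t.u13
      · exact t.u23
    have h1 := h.up t.m3 t.r3 hd hn
    have c1 : ch ({e1} ∪ {e2} : Set V) e3 = 0 := by
      apply ch_not_mem
      rintro (h1 | h1)
      · exact t.n13 (Set.mem_singleton_iff.mp h1).symm
      · exact t.n23 (Set.mem_singleton_iff.mp h1).symm
    have c2 : ch ({e3} : Set V) e3 = 1 := ch_mem rfl
    rw [c1, c2] at h1
    linarith
  have hadd : m y ({e1} ∪ {e2}) = m y {e1} + m y {e2} :=
    h.add y _ _ (by rw [Set.disjoint_singleton]; exact t.n12)
  -- a3 - a2 ≤ 2 ε  (compare at e2)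
  have hB : m y {e3} - m y {e2} ≤ 2 * ε := by
    have hd : Disjoint ({e3} : Set V) {e2} := by
      rw [Set.disjoint_singleton]; exact t.n23.symm
    have hn : NoEdge R ({e3} : Set V) {e2} := noEdge_singleton (fun e => t.u23 e.symm)
    have h1 := h.up t.m2 t.r2 hd hn
    have c1 : ch ({e3} : Set V) e2 = 0 := ch_not_mem (by
      rw [Set.mem_singleton_iff]; exact t.n23)
    have c2 : ch ({e2} : Set V) e2 = 1 := ch_mem rfl
    rw [c1, c2] at h1
    linarith
  linarith

theorem Tripod.nonneg (h : SetFn R E ε m) (hε : 0 ≤ ε) {y e1 e2 e3 : V}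
    (t : Tripod R E y e1 e2 e3) (A : Set V) : -(6 * ε) ≤ m y A := by
  have hmass := t.mass_le h
  have h1 := h.lo t.m1 t.r1 (A2 := ∅) (A0 := (A ∪ {e1})ᶜ) (by simp)
    (fun a ha => by simp at ha)
  have c1 : ch (∅ : Set V) e1 = 0 := ch_not_mem (by simp)
  have c2 : ch ((A ∪ {e1})ᶜ : Set V) e1 = 0 := ch_not_mem (by simp)
  rw [c1, c2, h.empty, h.compl] at h1
  by_cases he : e1 ∈ A
  · have : A ∪ {e1} = A := by
      rw [Set.union_eq_left, Set.singleton_subset_iff]; exact he
    rw [this] at h1
    linarith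
  · have h2 := h.add y A {e1} (by rw [Set.disjoint_singleton_right]; exact he)
    rw [h2] at h1
    linarith

theorem Tripod.conc (h : SetFn R E ε m) (hε : 0 ≤ ε) {y e1 e2 e3 : V}
    (t : Tripod R E y e1 e2 e3) (A : Set V) (hA : NoEdge R A {e1}) : m y A ≤ 10 * ε := by
  have hmass := t.mass_le h
  have key : ∀ B : Set V, e1 ∉ B → NoEdge R B {e1} → m y B ≤ 6 * ε := by
    intro B hB hn
    have h1 := h.up t.m1 t.r1 (A2 := B) (A0 := {e1})
      (by rw [Set.disjoint_singleton_right]; exact hB) hn
    have c2 : ch ({e1} : Set V) e1 = 1 := ch_mem rfl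
    rw [ch_not_mem hB, c2] at h1
    linarith
  by_cases he : e1 ∈ A
  · have h2 := h.diff y (A := {e1}) (B := A) (by rw [Set.singleton_subset_iff]; exact he)
    have h3 := key (A \ {e1}) (by simp) (fun a ha b hb => hA a ha.1 b hb)
    linarith
  · have := key A he hA
    linarith

theorem match_le (h : SetFn R E ε m) {y y' : V} (hyy : R y y' ∨ R y' y) {C C' A A' : Set V}
    (hy : ∀ B, Disjoint B C → m y B ≤ 10 * ε) (hy' : ∀ B, Disjoint B C' → m y' B ≤ 10 * ε)
    (hCC : Disjoint C C') (hA : A ⊆ C) (hA' : A' ⊆ C') (hn : NoEdge R A (C' \ A')) :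
    m y A - m y' A' ≤ 31 * ε := by
  have hd : Disjoint A (C' \ A') :=
    (hCC.mono_left hA).mono_right Set.sdiff_subset
  have h1 := h.lip y y' A (C' \ A') hyy hd hn
  have h2 := hy (C' \ A') ((hCC.mono_right Set.sdiff_subset).symm)
  have h3 := hy' A (hCC.mono_left hA)
  have h4 := h.diff y' hA'
  have h5 := h.compl y' C'
  have h6 := hy' C'ᶜ disjoint_compl_left
  linarith

end generic

/-- Levels of the graph: a base level, a middle level and one level for each generator. -/
inductive Lev (ι : Type) : Type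
  | base : Lev ι
  | mid : Lev ι
  | gen (i : ι) : Lev ι

/-- Vertices: three anchors for each level, one colour vertex, and a copy of `X` on each level. -/
inductive Vert (ι X : Type) : Type
  | anchor (l : Lev ι) (t : Fin 3) : Vert ι X
  | col : Vert ι X
  | pt (x : X) (l : Lev ι) : Vert ι X

/-- The (directed) relation generating the graph. -/
def Rel {ι X : Type} (s : ι → Equiv.Perm X) (red : X → Prop) : Vert ι X → Vert ι X → Prop
  | .anchor l _, .pt _ l' => l = l'
  | .col, .pt x .base => red x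
  | .pt x .base, .pt x' (.gen _) => x = x'
  | .pt x (.gen i), .pt x' .mid => x' = s i x
  | .pt x .mid, .pt x' .base => x = x'
  | _, _ => False

/-- The finite set of special vertices. -/
def special (ι X : Type) : Set (Vert ι X) := {v | (∃ l t, v = .anchor l t) ∨ v = .col}

/-- The copy of `A ⊆ X` on level `l`. -/
def lift {ι X : Type} (l : Lev ι) (A : Set X) : Set (Vert ι X) := {v | ∃ x ∈ A, v = .pt x l}

section graph

variable {ι X : Type} {s : ι → Equiv.Perm X} {red : X → Prop}

theorem not_rel_anchor (v : Vert ι X) (l : Lev ι) (t : Fin 3) :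
    ¬ Rel s red v (.anchor l t) := by
  intro h
  cases v with
  | anchor l' t' => exact h
  | col => exact h
  | pt x l' => cases l' <;> exact h

theorem not_rel_col (v : Vert ι X) : ¬ Rel s red v .col := by
  intro h
  cases v with
  | anchor l' t' => exact h
  | col => exact h
  | pt x l' => cases l' <;> exact h

theorem special_finite [Finite ι] : (special ι X).Finite := by
  have hL : Finite (Lev ι) := by
    let f : Option (Option ι) → Lev ι := fun a =>
      match a with
      | none => .base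
      | some none => .mid
      | some (some i) => .gen i
    apply Finite.of_surjective f
    intro l
    cases l with
    | base => exact ⟨none, rfl⟩
    | mid => exact ⟨some none, rfl⟩
    | gen i => exact ⟨some (some i), rfl⟩
  let g : Option (Lev ι × Fin 3) → Vert ι X := fun a =>
    match a with
    | none => .col
    | some (l, t) => .anchor l t
  apply (Set.finite_range g).subset
  rintro v (⟨l, t, rfl⟩ | rfl)
  · exact ⟨some (l, t), rfl⟩
  · exact ⟨none, rfl⟩

theorem mem_lift {l : Lev ι} {A : Set X} {x : X} {l' : Lev ι} :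
    (Vert.pt x l' : Vert ι X) ∈ lift l A ↔ x ∈ A ∧ l' = l := by
  constructor
  · rintro ⟨x', hx', h⟩
    injection h with h1 h2
    subst h1; subst h2
    exact ⟨hx', rfl⟩
  · rintro ⟨hx, rfl⟩
    exact ⟨x, hx, rfl⟩

theorem lift_mono {l : Lev ι} {A B : Set X} (h : A ⊆ B) : (lift l A : Set (Vert ι X)) ⊆ lift l B := by
  rintro v ⟨x, hx, rfl⟩
  exact ⟨x, h hx, rfl⟩

theorem lift_disjoint_of_ne {l l' : Lev ι} (hl : l ≠ l') (A B : Set X) :
    Disjoint (lift l A : Set (Vert ι X)) (lift l' B) := by
  rw [Set.disjoint_left]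
  rintro v ⟨x, _, rfl⟩ h2
  exact hl (mem_lift.mp h2).2

theorem lift_disjoint {l : Lev ι} {A B : Set X} (h : Disjoint A B) :
    Disjoint (lift l A : Set (Vert ι X)) (lift l B) := by
  rw [Set.disjoint_left]
  rintro v ⟨x, hx, rfl⟩ h2
  exact (Set.disjoint_left.mp h) hx (mem_lift.mp h2).1

theorem lift_union (l : Lev ι) (A B : Set X) :
    (lift l (A ∪ B) : Set (Vert ι X)) = lift l A ∪ lift l B := by
  ext v
  constructor
  · rintro ⟨x, hx | hx, rfl⟩
    · exact Or.inl ⟨x, hx, rfl⟩
    · exact Or.inr ⟨x, hx, rfl⟩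
  · rintro (⟨x, hx, rfl⟩ | ⟨x, hx, rfl⟩)
    · exact ⟨x, Or.inl hx, rfl⟩
    · exact ⟨x, Or.inr hx, rfl⟩

theorem tripod_pt (x : X) (l : Lev ι) :
    Tripod (Rel s red) (special ι X) (.pt x l) (.anchor l 0) (.anchor l 1) (.anchor l 2) where
  m1 := Or.inl ⟨l, 0, rfl⟩
  m2 := Or.inl ⟨l, 1, rfl⟩
  m3 := Or.inl ⟨l, 2, rfl⟩
  r1 := Or.inr rfl
  r2 := Or.inr rfl
  r3 := Or.inr rfl
  n12 := by intro h; injection h with _ h2; exact absurd h2 (by decide)
  n13 := by intro h; injection h with _ h2; exact absurd h2 (by decide)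
  n23 := by intro h; injection h with _ h2; exact absurd h2 (by decide)
  u12 := by rintro (h | h) <;> exact h
  u13 := by rintro (h | h) <;> exact h
  u23 := by rintro (h | h) <;> exact h

theorem noEdge_anchor {l : Lev ι} {B : Set (Vert ι X)} (hB : Disjoint B (lift l Set.univ))
    (t : Fin 3) : NoEdge (Rel s red) B {.anchor l t} := by
  intro a ha b hb
  rw [Set.mem_singleton_iff] at hb
  subst hb
  rintro (h | h)
  · exact not_rel_anchor _ _ _ h
  · cases a with
    | anchor l' t' => exact h
    | col => exact h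
    | pt x l' =>
      have : l = l' := h
      subst this
      exact (Set.disjoint_left.mp hB) ha ⟨x, trivial, rfl⟩

variable {ε : ℝ} {m : Vert ι X → Set (Vert ι X) → ℝ}

theorem pt_nonneg (h : SetFn (Rel s red) (special ι X) ε m) (hε : 0 ≤ ε) (x : X) (l : Lev ι)
    (A : Set (Vert ι X)) : -(6 * ε) ≤ m (.pt x l) A :=
  (tripod_pt x l).nonneg h hε A

theorem pt_conc (h : SetFn (Rel s red) (special ι X) ε m) (hε : 0 ≤ ε) (x : X) (l : Lev ι)
    (B : Set (Vert ι X)) (hB : Disjoint B (lift l Set.univ)) : m (.pt x l) B ≤ 10 * ε :=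
  (tripod_pt x l).conc h hε B (noEdge_anchor hB 0)

theorem pt_match (h : SetFn (Rel s red) (special ι X) ε m) (hε : 0 ≤ ε) {x x' : X} {l l' : Lev ι}
    (hl : l ≠ l') (hr : Rel s red (.pt x l) (.pt x' l') ∨ Rel s red (.pt x' l') (.pt x l))
    {A A' : Set X} (hn : NoEdge (Rel s red) (lift l A) (lift l' Set.univ \ lift l' A')) :
    m (.pt x l) (lift l A) - m (.pt x' l') (lift l' A') ≤ 31 * ε :=
  match_le h hr (pt_conc h hε x l) (pt_conc h hε x' l') (lift_disjoint_of_ne hl _ _)
    (lift_mono (Set.subset_univ _)) (lift_mono (Set.subset_univ _)) hn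

theorem noEdge_lift {l l' : Lev ι} {A A' : Set X}
    (H : ∀ x ∈ A, ∀ x', (Rel s red (.pt x l) (.pt x' l') ∨ Rel s red (.pt x' l') (.pt x l)) → x' ∈ A') :
    NoEdge (Rel s red) (lift l A) (lift l' Set.univ \ lift l' A') := by
  rintro a ⟨x, hx, rfl⟩ b ⟨⟨x', _, rfl⟩, hb⟩ hr
  exact hb ⟨x', H x hx x' hr, rfl⟩

end graph

/-- The abstract kernel on `X` extracted from the set functions. -/
structure Kern {ι X : Type} (s : ι → Equiv.Perm X) (red : X → Prop) (δ : ℝ)
    (μ : X → Set X → ℝ) : Prop where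
  add : ∀ x A B, Disjoint A B → μ x (A ∪ B) = μ x A + μ x B
  nonneg : ∀ x A, -δ ≤ μ x A
  total : ∀ x, 1 - δ ≤ μ x Set.univ
  equi : ∀ i x A, |μ x A - μ (s i x) (s i '' A)| ≤ δ
  colour : ∀ x, red x → ∀ A : Set X, (∀ a ∈ A, ¬ red a) → μ x A ≤ δ
  tight : ∀ η : ℝ, 0 < η → ∃ K : Set X, K.Finite ∧ ∀ A, Disjoint A K → ∀ x, |μ x A| ≤ η

theorem exists_kern {ι X : Type} {s : ι → Equiv.Perm X} {red : X → Prop} {ε : ℝ} (hε : 0 ≤ ε)
    {m : Vert ι X → Set (Vert ι X) → ℝ} (h : SetFn (Rel s red) (special ι X) ε m) :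
    Kern s red (93 * ε) (fun x A => m (.pt x .base) (lift .base A)) where
  add x A B hAB := by
    rw [lift_union]
    exact h.add _ _ _ (lift_disjoint hAB)
  nonneg x A := by
    have := pt_nonneg h hε x .base (lift .base A)
    linarith
  total x := by
    have h1 := h.compl (.pt x .base) (lift .base Set.univ)
    have h2 := pt_conc h hε x .base (lift .base Set.univ)ᶜ disjoint_compl_left
    linarith
  equi i x A := by
    have a1 : m (.pt x .base) (lift .base A) - m (.pt x (.gen i)) (lift (.gen i) A) ≤ 31 * ε :=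
      pt_match h hε (x := x) (x' := x) (l := .base) (l' := .gen i) (by intro e; cases e) (Or.inl rfl) (noEdge_lift (by
        rintro y hy y' (hr | hr)
        · have : y = y' := hr
          exact this ▸ hy
        · exact hr.elim))
    have a2 : m (.pt x (.gen i)) (lift (.gen i) A) - m (.pt (s i x) .mid) (lift .mid (s i '' A))
        ≤ 31 * ε :=
      pt_match h hε (x := x) (x' := s i x) (l := .gen i) (l' := .mid) (by intro e; cases e) (Or.inl rfl) (noEdge_lift (by
        rintro y hy y' (hr | hr)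
        · have : y' = s i y := hr
          exact this ▸ ⟨y, hy, rfl⟩
        · exact hr.elim))
    have a3 : m (.pt (s i x) .mid) (lift .mid (s i '' A))
        - m (.pt (s i x) .base) (lift .base (s i '' A)) ≤ 31 * ε :=
      pt_match h hε (x := s i x) (x' := s i x) (l := .mid) (l' := .base) (by intro e; cases e) (Or.inl rfl) (noEdge_lift (by
        rintro y hy y' (hr | hr)
        · have : y = y' := hr
          exact this ▸ hy
        · exact hr.elim))
    have b1 : m (.pt x (.gen i)) (lift (.gen i) A) - m (.pt x .base) (lift .base A) ≤ 31 * ε :=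
      pt_match h hε (x := x) (x' := x) (l := .gen i) (l' := .base) (by intro e; cases e) (Or.inr rfl) (noEdge_lift (by
        rintro y hy y' (hr | hr)
        · exact hr.elim
        · have : y' = y := hr
          exact this ▸ hy))
    have b2 : m (.pt (s i x) .mid) (lift .mid (s i '' A)) - m (.pt x (.gen i)) (lift (.gen i) A)
        ≤ 31 * ε :=
      pt_match h hε (x := s i x) (x' := x) (l := .mid) (l' := .gen i) (by intro e; cases e) (Or.inr rfl) (noEdge_lift (by
        rintro y ⟨z, hz, rfl⟩ y' (hr | hr)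
        · exact hr.elim
        · have : s i z = s i y' := hr
          exact ((s i).injective this) ▸ hz))
    have b3 : m (.pt (s i x) .base) (lift .base (s i '' A))
        - m (.pt (s i x) .mid) (lift .mid (s i '' A)) ≤ 31 * ε :=
      pt_match h hε (x := s i x) (x' := s i x) (l := .base) (l' := .mid) (by intro e; cases e) (Or.inr rfl) (noEdge_lift (by
        rintro y hy y' (hr | hr)
        · exact hr.elim
        · have : y' = y := hr
          exact this ▸ hy))
    rw [abs_le]
    constructor <;> linarith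
  colour x hx A hA := by
    have hd : Disjoint (lift .base A : Set (Vert ι X)) {.col} := by
      rw [Set.disjoint_singleton_right]
      rintro ⟨y, _, hy⟩
      cases hy
    have hn : NoEdge (Rel s red) (lift .base A) {.col} := by
      rintro a ⟨y, hy, rfl⟩ b hb
      rw [Set.mem_singleton_iff] at hb
      subst hb
      rintro (hr | hr)
      · exact hr.elim
      · exact hA y hy hr
    have h1 := h.up (e := .col) (y := .pt x .base) (Or.inr rfl) (Or.inr hx) hd hn
    have c1 : ch (lift .base A : Set (Vert ι X)) .col = 0 := ch_not_mem (by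
      rintro ⟨y, _, hy⟩
      cases hy)
    have c2 : ch ({.col} : Set (Vert ι X)) .col = 1 := ch_mem rfl
    rw [c1, c2] at h1
    have h2 := pt_conc h hε x .base {.col} (by
      rw [Set.disjoint_singleton_left]
      rintro ⟨y, _, hy⟩
      cases hy)
    linarith
  tight η hη := by
    obtain ⟨K, hK, hKA⟩ := h.tight η hη
    refine ⟨(fun x => (Vert.pt x .base : Vert ι X)) ⁻¹' K, hK.preimage ?_, fun A hA x => ?_⟩
    · intro a _ b _ hab
      injection hab
    · apply hKA
      rw [Set.disjoint_left]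
      rintro v ⟨y, hy, rfl⟩ hv
      exact (Set.disjoint_left.mp hA) hy hv

end Vale.Agent.P090
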