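import Vale.Agent.P090.Defs

namespace Vale.Agent.P090

open Set Classical

/-- The `{0,1,2}`-valued distance attached to a relation: distinct points are at distance `1`
if they are related (in either order) and `2` otherwise. -/
noncomputable def tdDist {V : Type} (R : V → V → Prop) (a b : V) : ℝ :=
  if a = b then 0 else if R a b ∨ R b a then 1 else 2

section basic

variable {V : Type} {R : V → V → Prop}

theorem tdDist_self (a : V) : tdDist R a a = 0 := by simp [tdDist]

theorem tdDist_comm (a b : V) : tdDist R a b = tdDist R b a := by
  unfold tdDist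
  by_cases h : a = b
  · simp [h]
  · have h' : ¬ b = a := fun e => h e.symm
    simp only [h, h', if_false, or_comm]

theorem tdDist_le_two (a b : V) : tdDist R a b ≤ 2 := by
  unfold tdDist
  split_ifs <;> norm_num

theorem one_le_tdDist {a b : V} (h : a ≠ b) : 1 ≤ tdDist R a b := by
  unfold tdDist
  split_ifs <;> first | contradiction | norm_num

/-- The metric space structure on `V` given by `tdDist R`. -/
@[reducible]
noncomputable def tdMetric {V : Type} (R : V → V → Prop) : MetricSpace V where
  dist := tdDist R
  dist_self := tdDist_self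
  dist_comm := tdDist_comm
  dist_triangle a b c := by
    by_cases h1 : a = b
    · subst h1
      have : tdDist R a a = 0 := tdDist_self a
      linarith
    · by_cases h2 : b = c
      · subst h2
        have : tdDist R b b = 0 := tdDist_self b
        linarith
      · have := one_le_tdDist (R := R) h1
        have := one_le_tdDist (R := R) h2
        have := tdDist_le_two (R := R) a c
        linarith
  eq_of_dist_eq_zero := by
    intro a b h
    by_contra hne
    have := one_le_tdDist (R := R) hne
    change tdDist R a b = 0 at h
    linarith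

end basic

/-- real valued indicator -/
noncomputable def ch {V : Type} (A : Set V) (a : V) : ℝ := if a ∈ A then 1 else 0

section ch
variable {V : Type}
theorem ch_mem {A : Set V} {a : V} (h : a ∈ A) : ch A a = 1 := by simp [ch, h]
theorem ch_not_mem {A : Set V} {a : V} (h : a ∉ A) : ch A a = 0 := by simp [ch, h]
theorem ch_nonneg (A : Set V) (a : V) : 0 ≤ ch A a := by unfold ch; split_ifs <;> norm_num
theorem ch_le_one (A : Set V) (a : V) : ch A a ≤ 1 := by unfold ch; split_ifs <;> norm_num

theorem ch_union {A B : Set V} (h : Disjoint A B) (a : V) : ch (A ∪ B) a = ch A a + ch B a := by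
  by_cases hA : a ∈ A
  · have hB : a ∉ B := fun hB => (Set.disjoint_left.mp h) hA hB
    simp [ch, hA, hB]
  · by_cases hB : a ∈ B <;> simp [ch, hA, hB]
end ch

/-- The metric of `V` is the two-valued metric attached to `R`. -/
structure IsTD (V : Type) [MetricSpace V] (R : V → V → Prop) : Prop where
  dist_eq : ∀ a b : V, dist a b = tdDist R a b

variable {V : Type} [MetricSpace V] {R : V → V → Prop}

theorem IsTD.dist_le_two (H : IsTD V R) (a b : V) : dist a b ≤ 2 := by
  rw [H.dist_eq]; exact tdDist_le_two a b

theorem IsTD.one_le_dist (H : IsTD V R) {a b : V} (h : a ≠ b) : 1 ≤ dist a b := by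
  rw [H.dist_eq]; exact one_le_tdDist h

theorem IsTD.dist_eq_one (H : IsTD V R) {a b : V} (h : a ≠ b) (hR : R a b ∨ R b a) :
    dist a b = 1 := by
  rw [H.dist_eq]; unfold tdDist; simp [h, hR]

theorem IsTD.dist_eq_two (H : IsTD V R) {a b : V} (h : a ≠ b) (hR : ¬ (R a b ∨ R b a)) :
    dist a b = 2 := by
  rw [H.dist_eq]; unfold tdDist; simp [h, hR]

/-- The indicator of `A`, normalised to vanish at the base point, as an element of `Lip0`. -/
noncomputable def ind (H : IsTD V R) (o : V) (A : Set V) : Lip0 V o :=
  ⟨fun a => ch A a - ch A o, by simp, 1, zero_le_one, fun x y => by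
    by_cases h : x = y
    · subst h; simp
    · have h1 := H.one_le_dist h
      have := ch_nonneg A x
      have := ch_nonneg A y
      have := ch_le_one A x
      have := ch_le_one A y
      rw [abs_le]
      constructor <;> linarith⟩

@[simp] theorem ind_apply (H : IsTD V R) (o : V) (A : Set V) (a : V) :
    ind H o A a = ch A a - ch A o := rfl

theorem ind_union (H : IsTD V R) (o : V) {A B : Set V} (h : Disjoint A B) :
    ind H o (A ∪ B) = ind H o A + ind H o B := by
  apply Lip0.ext
  intro a
  simp only [ind_apply, Lip0.add_apply, ch_union h]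
  ring

theorem ind_univ (H : IsTD V R) (o : V) : ind H o (Set.univ : Set V) = 0 := by
  apply Lip0.ext
  intro a
  simp [ch]

/-- No related pair between `A` and `B`. -/
def NoEdge (R : V → V → Prop) (A B : Set V) : Prop := ∀ a ∈ A, ∀ b ∈ B, ¬ (R a b ∨ R b a)

theorem norm_ind_sub_le (H : IsTD V R) (o : V) {A2 A0 : Set V} (hd : Disjoint A2 A0)
    (hn : NoEdge R A2 A0) : ‖ind H o A2 - ind H o A0‖ ≤ 1 := by
  rw [norm_def]
  refine lipConst_le zero_le_one (fun x y => ?_)
  rw [one_mul]
  simp only [Lip0.sub_apply, ind_apply]
  by_cases h : x = y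
  · subst h; simp
  · have h1 := H.one_le_dist h
    have hdis := Set.disjoint_left.mp hd
    by_cases hx2 : x ∈ A2
    · have hx0 : x ∉ A0 := hdis hx2
      by_cases hy0 : y ∈ A0
      · have hy2 : y ∉ A2 := fun h2 => hdis h2 hy0
        have h2 := H.dist_eq_two h (hn x hx2 y hy0)
        rw [h2, ch_mem hx2, ch_not_mem hx0, ch_mem hy0, ch_not_mem hy2, abs_le]
        constructor <;> linarith
      · have := ch_nonneg A2 y
        have := ch_le_one A2 y
        rw [ch_mem hx2, ch_not_mem hx0, ch_not_mem hy0, abs_le]
        constructor <;> linarith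
    · by_cases hx0 : x ∈ A0
      · by_cases hy2 : y ∈ A2
        · have hy0 : y ∉ A0 := hdis hy2
          have h2 := H.dist_eq_two h (fun e => hn y hy2 x hx0 e.symm)
          rw [h2, ch_not_mem hx2, ch_mem hx0, ch_mem hy2, ch_not_mem hy0, abs_le]
          constructor <;> linarith
        · have := ch_nonneg A0 y
          have := ch_le_one A0 y
          rw [ch_not_mem hx2, ch_mem hx0, ch_not_mem hy2, abs_le]
          constructor <;> linarith
      · by_cases hy2 : y ∈ A2
        · have hy0 : y ∉ A0 := hdis hy2
          rw [ch_not_mem hx2, ch_not_mem hx0, ch_mem hy2, ch_not_mem hy0, abs_le]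
          constructor <;> linarith
        · have := ch_nonneg A0 y
          have := ch_le_one A0 y
          rw [ch_not_mem hx2, ch_not_mem hx0, ch_not_mem hy2, abs_le]
          constructor <;> linarith

end Vale.Agent.P090
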